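import Vale.Agent.Lib.P060.Pairs

namespace Vale.Agent.Lib.P060

open Finset

variable {V : Type*} [Fintype V] [DecidableEq V]

/-- A matching of a graph, in the sense of Mathlib, gives a pairing of adjacent vertices. -/
theorem exists_pairing_of_matching (G : SimpleGraph V) (M : G.Subgraph) (hM : M.IsMatching) :
    ∃ g : V → V, ValidPairing univ G.Adj (fun _ _ _ _ => True) g ∧
      (moved g).card = M.verts.ncard := by
  classical
  let g : V → V := fun v => if h : v ∈ M.verts then (hM h).choose else v
  have hg1 : ∀ v (_ : v ∈ M.verts), M.Adj v (g v) := by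
    intro v h
    simp only [g, dif_pos h]
    exact (hM h).choose_spec.1
  have hg2 : ∀ v (_ : v ∈ M.verts) w, M.Adj v w → w = g v := by
    intro v h w hw
    simp only [g, dif_pos h]
    exact (hM h).choose_spec.2 w hw
  have hg3 : ∀ v, v ∉ M.verts → g v = v := by
    intro v h
    simp only [g, dif_neg h]
  refine ⟨g, ⟨?_, ?_, fun _ _ _ _ _ _ => trivial⟩, ?_⟩
  · intro a
    by_cases h : a ∈ M.verts
    · have h1 := hg1 a h
      have h2 : g a ∈ M.verts := M.edge_vert h1.symm
      exact (hg2 (g a) h2 a h1.symm).symm
    · rw [hg3 a h, hg3 a h]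
  · intro a ha
    have h : a ∈ M.verts := by
      by_contra h
      exact ha (hg3 a h)
    exact ⟨mem_univ _, M.adj_sub (hg1 a h)⟩
  · have : (moved g : Set V) = M.verts := by
      ext a
      rw [mem_coe, mem_moved]
      constructor
      · intro ha
        by_contra h
        exact ha (hg3 a h)
      · intro h
        exact (M.adj_sub (hg1 a h)).ne'
    rw [← this, Set.ncard_coe_finset]

/-- Hadwiger's conjecture for graphs whose complement has maximum degree at most `d` and a
matching with at least `d ^ 2 + 1` edges. -/
theorem dense_hadwiger (G : SimpleGraph V) [DecidableRel G.Adj] (d : ℕ)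
    (hdeg : ∀ v, Gᶜ.degree v ≤ d)
    (M : Gᶜ.Subgraph) (hM : M.IsMatching) (hcard : 2 * (d ^ 2 + 1) ≤ M.verts.ncard) :
    ∃ t : ℕ, G.Colorable t ∧ HasCompleteMinor G t := by
  classical
  let e : V → ℕ := fun v => (Fintype.equivFin V v : ℕ)
  have he : Function.Injective e := fun a b h => (Fintype.equivFin V).injective (Fin.ext h)
  have hnadj : ∀ x y, x ≠ y → ¬ Gᶜ.Adj x y → G.Adj x y := by
    intro x y hxy h
    by_contra h'
    exact h ((SimpleGraph.compl_adj G x y).mpr ⟨hxy, h'⟩)
  -- a maximum matching of the complement
  obtain ⟨g0, hg0, hg0c⟩ := exists_pairing_of_matching Gᶜ M hM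
  obtain ⟨g, hg, hgmax⟩ := exists_max_valid (univ : Finset V) Gᶜ.Adj (fun _ _ _ _ => True)
  have hgcard : 2 * (d ^ 2 + 1) ≤ (moved g).card := by
    have := hgmax g0 hg0
    omega
  -- unmatched vertices form a clique
  have hclique : ∀ a b, g a = a → g b = b → a ≠ b → G.Adj a b := by
    intro a b ha hb hab
    by_contra hadj
    have hc : Gᶜ.Adj a b := (SimpleGraph.compl_adj G a b).mpr ⟨hab, hadj⟩
    obtain ⟨hval, hcd⟩ := valid_addPair hg (fun _ _ h => h.symm) (fun _ _ _ _ _ => trivial)
      (fun _ _ _ _ _ => trivial) hab ha hb (mem_univ _) (mem_univ _) hc (fun _ _ => trivial)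
    have := hgmax _ hval
    omega
  -- a perfect pairing of the matched vertices by pairs at distance at least three
  let P : V → V → Prop := fun a b => a ≠ b ∧ ¬ Gᶜ.Adj a b ∧ ∀ z, ¬ (Gᶜ.Adj a z ∧ Gᶜ.Adj b z)
  obtain ⟨f, hf, hfu⟩ := exists_almost_perfect (moved g) P (fun _ _ _ _ => True) (d * d)
    (fun a b h => ⟨h.1.symm, fun h' => h.2.1 h'.symm, fun z hz => h.2.2 z ⟨hz.2, hz.1⟩⟩)
    (fun _ _ _ _ _ => trivial) (fun _ _ _ _ _ => trivial) (fun _ _ _ _ _ => trivial)
    (by
      intro f _ u _ _
      refine ⟨Gᶜ.neighborFinset u ∪ (Gᶜ.neighborFinset u).biUnion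
        (fun z => (Gᶜ.neighborFinset z).erase u), ?_, ?_⟩
      · have h1 : (Gᶜ.neighborFinset u).card ≤ d := by
          rw [SimpleGraph.card_neighborFinset_eq_degree]; exact hdeg u
        have h2 : ((Gᶜ.neighborFinset u).biUnion
            (fun z => (Gᶜ.neighborFinset z).erase u)).card ≤ d * (d - 1) := by
          calc ((Gᶜ.neighborFinset u).biUnion (fun z => (Gᶜ.neighborFinset z).erase u)).card
              ≤ ∑ z ∈ Gᶜ.neighborFinset u, ((Gᶜ.neighborFinset z).erase u).card :=
                card_biUnion_le
            _ ≤ ∑ _z ∈ Gᶜ.neighborFinset u, (d - 1) := by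
                apply Finset.sum_le_sum
                intro z hz
                have hz' : u ∈ Gᶜ.neighborFinset z := by
                  rw [SimpleGraph.mem_neighborFinset] at hz ⊢
                  exact hz.symm
                rw [card_erase_of_mem hz', SimpleGraph.card_neighborFinset_eq_degree]
                have := hdeg z
                omega
            _ = (Gᶜ.neighborFinset u).card * (d - 1) := by
                rw [Finset.sum_const, smul_eq_mul]
            _ ≤ d * (d - 1) := Nat.mul_le_mul_right _ h1
        have h3 : d + d * (d - 1) ≤ d * d := by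
          have h5 : d * (d - 1) = d * d - d := Nat.mul_sub_one d d
          have h6 : d ≤ d * d := Nat.le_mul_self d
          omega
        have h4 := card_union_le (Gᶜ.neighborFinset u) ((Gᶜ.neighborFinset u).biUnion
          (fun z => (Gᶜ.neighborFinset z).erase u))
        omega
      · intro w _ hwu hnot
        by_cases h1 : Gᶜ.Adj u w
        · exact mem_union_left _ ((SimpleGraph.mem_neighborFinset _ _ _).mpr h1)
        · by_contra hB
          apply hnot
          refine ⟨⟨Ne.symm hwu, h1, fun z hz => hB ?_⟩, fun _ _ => trivial⟩
          apply mem_union_right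
          rw [mem_biUnion]
          refine ⟨z, (SimpleGraph.mem_neighborFinset _ _ _).mpr hz.1, ?_⟩
          rw [mem_erase]
          exact ⟨hwu, (SimpleGraph.mem_neighborFinset _ _ _).mpr hz.2.symm⟩)
    (by
      intro _
      have : d ^ 2 = d * d := sq d
      omega)
  -- the pairing is perfect on the matched vertices
  have hsub : moved f ⊆ moved g := fun a ha => (hf.adm a (mem_moved.mp ha)).1
  have hperf : moved g ⊆ moved f := by
    have h1 := card_moved_eq f hf.invol e he
    have h2 := card_moved_eq g hg.invol e he
    have h3 : (moved g \ moved f).card ≤ 1 := by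
      apply Finset.card_le_one.mpr
      intro a ha b hb
      simp only [mem_sdiff, mem_moved, not_not] at ha hb
      exact hfu a (mem_moved.mpr ha.1) b (mem_moved.mpr hb.1) ha.2 hb.2
    have h4 := card_sdiff_of_subset hsub
    have h5 : (moved g \ moved f).card = 0 := by omega
    have h6 : moved g \ moved f = ∅ := Finset.card_eq_zero.mp h5
    exact Finset.sdiff_eq_empty_iff_subset.mp h6
  have hmeq : moved f = moved g := Finset.Subset.antisymm hsub hperf
  have hreps : (reps g e).card = (reps f e).card := by
    have h1 := card_reps f hf.invol e he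
    have h2 := card_reps g hg.invol e he
    rw [hmeq] at h1
    omega
  refine ⟨(reps f e).card, ?_, ?_⟩
  · rw [← hreps]
    exact colorable_of_pairing G g hg.invol e
      (fun a ha => ((SimpleGraph.compl_adj G _ _).mp (hg.adm a ha).2).2)
  · apply hasCompleteMinor_of_pairing G f hf.invol e he
    · intro a ha
      have hP : P a (f a) := (hf.adm a ha).2
      exact hnadj _ _ hP.1 hP.2.1
    · intro a c hca hcfa
      by_cases ha : f a = a
      · by_cases hc : f c = c
        · left
          have ha' : g a = a := by
            by_contra h
            have : a ∈ moved f := hperf (mem_moved.mpr h)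
            exact (mem_moved.mp this) ha
          have hc' : g c = c := by
            by_contra h
            have : c ∈ moved f := hperf (mem_moved.mpr h)
            exact (mem_moved.mp this) hc
          exact hclique a c ha' hc' (Ne.symm hca)
        · have hP : P c (f c) := (hf.adm c hc).2
          rcases not_and_or.mp (hP.2.2 a) with h | h
          · left
            exact (hnadj _ _ hca h).symm
          · right; left
            have hne : f c ≠ a := by
              intro h'
              have := hf.invol c
              rw [h', ha] at this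
              exact hca this.symm
            exact (hnadj _ _ hne h).symm
      · have hP : P a (f a) := (hf.adm a ha).2
        rcases not_and_or.mp (hP.2.2 c) with h | h
        · left
          exact hnadj _ _ (Ne.symm hca) h
        · right; right; left
          exact hnadj _ _ (Ne.symm hcfa) h

end Vale.Agent.Lib.P060
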