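import Vale.Agent.Lib.P060.Critical
import Vale.Agent.Lib.P060.Dense

namespace Vale.Agent.Lib.P060

open Finset

variable {V : Type*} [Fintype V] [DecidableEq V]

/-- Hadwiger's conjecture for graphs in which every vertex has at most `d` non-neighbours and
whose clique number is small compared with the number of vertices. The number `t` of colours
and of branch sets is at least half the number of vertices. -/
theorem hadwiger_pairs_aux (G : SimpleGraph V) [DecidableRel G.Adj] (d s : ℕ)
    (hs : 1 ≤ s) (hdeg : ∀ v, Gᶜ.degree v ≤ d)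
    (hsize : 2 * (d * (s + 1) + d * d / s) + 2 * G.cliqueNum < Fintype.card V) :
    ∃ t : ℕ, Fintype.card V ≤ 2 * t ∧ G.Colorable t ∧ HasPairMinor G t := by
  classical
  let e : V → ℕ := fun v => (Fintype.equivFin V v : ℕ)
  have he : Function.Injective e := fun a b h => (Fintype.equivFin V).injective (Fin.ext h)
  have hnadj : ∀ x y, x ≠ y → ¬ Gᶜ.Adj x y → G.Adj x y := by
    intro x y hxy h
    by_contra h'
    exact h ((SimpleGraph.compl_adj G x y).mpr ⟨hxy, h'⟩)
  have hQs : ∀ a b, Gᶜ.Adj a b → Gᶜ.Adj b a := fun _ _ h => h.symm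
  -- a maximum matching of the complement, and the critical core
  obtain ⟨gV, hgV⟩ := exists_max_valid (univ : Finset V) Gᶜ.Adj (fun _ _ _ _ => True)
  obtain ⟨S, g, hg, hcard, hcrit⟩ := exists_critical_core Gᶜ.Adj gV hgV
  have hWS : moved g ⊆ S := fun a ha => (hg.1.adm a (mem_moved.mp ha)).1
  have hUfix : ∀ z, z ∈ S \ moved g → z ∈ S ∧ g z = z := by
    intro z hz
    rw [mem_sdiff, mem_moved, not_not] at hz
    exact hz
  -- unmatched vertices of the core form a clique
  have hclique : ∀ a ∈ S \ moved g, ∀ b ∈ S \ moved g, a ≠ b → G.Adj a b := by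
    intro a ha b hb hab
    obtain ⟨haS, hga⟩ := hUfix a ha
    obtain ⟨hbS, hgb⟩ := hUfix b hb
    by_contra hadj
    have hc : Gᶜ.Adj a b := (SimpleGraph.compl_adj G a b).mpr ⟨hab, hadj⟩
    obtain ⟨hval, hcd⟩ := valid_addPair hg.1 hQs (fun _ _ _ _ _ => trivial)
      (fun _ _ _ _ _ => trivial) hab hga hgb haS hbS hc (fun _ _ => trivial)
    have := hg.2 _ hval
    omega
  have hUcard : (S \ moved g).card ≤ G.cliqueNum := by
    have hcl : G.IsClique ((S \ moved g : Finset V) : Set V) := by
      intro a ha b hb hab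
      exact hclique a (mem_coe.mp ha) b (mem_coe.mp hb) hab
    exact SimpleGraph.IsClique.card_le_cliqueNum (tc := hcl)
  -- every matched vertex has at most one unmatched non-neighbour
  have hU1 : ∀ u ∈ moved g, ∀ z1 ∈ S \ moved g, ∀ z2 ∈ S \ moved g,
      Gᶜ.Adj u z1 → Gᶜ.Adj u z2 → z1 = z2 := by
    intro u hu z1 hz1 z2 hz2 h1 h2
    obtain ⟨m, hm, hmu⟩ := hcrit u (hWS hu)
    obtain ⟨hz1S, hgz1⟩ := hUfix z1 hz1
    obtain ⟨hz2S, hgz2⟩ := hUfix z2 hz2
    exact exposed_nbr_unique S Gᶜ.Adj hQs g m hg.1 hm.1 hg.2 hm.2 u (hWS hu) hmu z1 z2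
      hz1S hz2S hgz1 hgz2 h1 h2
  -- sizes
  have hSc : S.card = (S \ moved g).card + (moved g).card := by
    have := card_sdiff_of_subset hWS
    have h5 : (moved g).card ≤ S.card := card_le_card hWS
    omega
  have hgVle : (moved gV).card ≤ Fintype.card V := by
    rw [← card_univ]; exact card_le_card (subset_univ _)
  obtain ⟨f, hf, hfu⟩ := exists_pairing_core' G d s hs hdeg (moved g) (S \ moved g) hU1
    (fun _ => by omega)
  have hsub : moved f ⊆ moved g := fun a ha => (hf.adm a (mem_moved.mp ha)).1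
  have hperf : moved g ⊆ moved f := by
    have h1 := card_moved_eq f hf.invol e he
    have h2 := card_moved_eq g hg.1.invol e he
    have h3 : (moved g \ moved f).card ≤ 1 := by
      apply card_le_one.mpr
      intro a ha b hb
      simp only [mem_sdiff, mem_moved, not_not] at ha hb
      exact hfu a (mem_moved.mpr ha.1) b (mem_moved.mpr hb.1) ha.2 hb.2
    have h4 := card_sdiff_of_subset hsub
    have h5 : (moved g \ moved f).card = 0 := by omega
    exact sdiff_eq_empty_iff_subset.mp (card_eq_zero.mp h5)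
  have hmeq : moved f = moved g := Subset.antisymm hsub hperf
  have hcnt := card_reps_on S f hf.invol (hsub.trans hWS) e he
  have hcntV := card_reps gV hgV.1.invol e he
  have hteq : (S.filter (fun a => e a ≤ e (f a))).card = (reps gV e).card := by
    rw [hmeq] at hcnt
    omega
  refine ⟨(S.filter (fun a => e a ≤ e (f a))).card, ?_, ?_, ?_⟩
  · rw [hteq]; omega
  · rw [hteq]
    exact colorable_of_pairing G gV hgV.1.invol e
      (fun a ha => ((SimpleGraph.compl_adj G _ _).mp (hgV.1.adm a ha).2).2)
  · apply hasPairMinor_of_pairing_on G S f hf.invol e he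
    · intro a _ ha
      have hP := (hf.adm a ha).2
      exact hnadj _ _ hP.1 hP.2.1
    · intro a haS c hcS hca hcfa
      have hU : ∀ x, x ∈ S → f x = x → x ∈ S \ moved g := by
        intro x hxS hx
        rw [mem_sdiff]
        exact ⟨hxS, fun h => (mem_moved.mp (hperf h)) hx⟩
      by_cases ha : f a = a
      · have haU := hU a haS ha
        by_cases hc : f c = c
        · left
          exact hclique a haU c (hU c hcS hc) (Ne.symm hca)
        · have hP := (hf.adm c hc).2
          have hne : f c ≠ a := by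
            intro h'
            have := hf.invol c
            rw [h', ha] at this
            exact hca this.symm
          rcases not_and_or.mp (hP.2.2.2 a haU) with h | h
          · left; exact (hnadj _ _ hca h).symm
          · right; left; exact (hnadj _ _ hne h).symm
      · have hP := (hf.adm a ha).2
        by_cases hc : f c = c
        · have hcU := hU c hcS hc
          rcases not_and_or.mp (hP.2.2.2 c hcU) with h | h
          · left; exact hnadj _ _ (Ne.symm hca) h
          · right; right; left; exact hnadj _ _ (Ne.symm hcfa) h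
        · have hC := hf.compat a c ha hc hca hcfa
          have h1 : a ≠ f c := by
            intro h'
            have := hf.invol c
            rw [← h'] at this
            exact hcfa this.symm
          have h2 : f a ≠ f c := by
            intro h'
            have := congrArg f h'
            rw [hf.invol, hf.invol] at this
            exact hca this.symm
          by_contra hnone
          rw [not_or, not_or, not_or] at hnone
          apply hC
          refine ⟨?_, ?_, ?_, ?_⟩
          · by_contra h; exact hnone.1 (hnadj _ _ (Ne.symm hca) h)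
          · by_contra h; exact hnone.2.1 (hnadj _ _ h1 h)
          · by_contra h; exact hnone.2.2.1 (hnadj _ _ (Ne.symm hcfa) h)
          · by_contra h; exact hnone.2.2.2 (hnadj _ _ h2 h)

/-- Hadwiger's conjecture for graphs with independence number at most two and clique number
`ω` with `144 ω^3 ≤ n^2`. -/
theorem hadwiger_pairs_of_small_clique (G : SimpleGraph V) (hα : G.indepNum ≤ 2)
    (hn : 144 * G.cliqueNum ^ 3 ≤ Fintype.card V ^ 2) :
    ∃ t : ℕ, Fintype.card V ≤ 2 * t ∧ G.Colorable t ∧ HasPairMinor G t := by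
  classical
  by_cases hV : IsEmpty V
  · have := hV
    refine ⟨0, ?_, SimpleGraph.Colorable.of_isEmpty 0, ⟨fun i => i.elim0, fun i => i.elim0,
      fun i => i.elim0, fun i => i.elim0, fun i => i.elim0⟩⟩
    rw [Fintype.card_eq_zero]
  · rw [not_isEmpty_iff] at hV
    obtain ⟨v⟩ := hV
    have hk : 1 ≤ G.cliqueNum := by
      have hcl : G.IsClique (({v} : Finset V) : Set V) := by
        rw [coe_singleton]; exact SimpleGraph.isClique_singleton v
      have := SimpleGraph.IsClique.card_le_cliqueNum (tc := hcl)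
      rwa [card_singleton] at this
    have hr1 : Nat.sqrt G.cliqueNum * Nat.sqrt G.cliqueNum ≤ G.cliqueNum := Nat.sqrt_le _
    have hr2 : G.cliqueNum < (Nat.sqrt G.cliqueNum + 1) * (Nat.sqrt G.cliqueNum + 1) :=
      Nat.lt_succ_sqrt _
    apply hadwiger_pairs_aux G G.cliqueNum (Nat.sqrt G.cliqueNum + 1) (by omega)
      (compl_degree_le_cliqueNum G hα)
    have h1 : G.cliqueNum * G.cliqueNum / (Nat.sqrt G.cliqueNum + 1) <
        G.cliqueNum * (Nat.sqrt G.cliqueNum + 1) := by
      apply Nat.div_lt_of_lt_mul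
      nlinarith
    have h2 : 4 * G.cliqueNum * (Nat.sqrt G.cliqueNum + 2) ≤ Fintype.card V := by
      by_contra h
      have h := not_le.mp h
      have h3 : Fintype.card V * Fintype.card V <
          (4 * G.cliqueNum * (Nat.sqrt G.cliqueNum + 2)) *
            (4 * G.cliqueNum * (Nat.sqrt G.cliqueNum + 2)) :=
        Nat.mul_self_lt_mul_self h
      have h4 : (Nat.sqrt G.cliqueNum + 2) * (Nat.sqrt G.cliqueNum + 2) ≤ 9 * G.cliqueNum := by
        nlinarith
      have h5 : (4 * G.cliqueNum * (Nat.sqrt G.cliqueNum + 2)) *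
          (4 * G.cliqueNum * (Nat.sqrt G.cliqueNum + 2)) ≤ 144 * G.cliqueNum ^ 3 := by
        have e1 : (4 * G.cliqueNum * (Nat.sqrt G.cliqueNum + 2)) *
            (4 * G.cliqueNum * (Nat.sqrt G.cliqueNum + 2)) =
            16 * G.cliqueNum * G.cliqueNum *
              ((Nat.sqrt G.cliqueNum + 2) * (Nat.sqrt G.cliqueNum + 2)) := by ring
        have e2 : 144 * G.cliqueNum ^ 3 = 16 * G.cliqueNum * G.cliqueNum * (9 * G.cliqueNum) := by
          ring
        rw [e1, e2]
        exact Nat.mul_le_mul_left _ h4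
      have h6 : Fintype.card V ^ 2 = Fintype.card V * Fintype.card V := sq _
      omega
    have h6 : G.cliqueNum * (Nat.sqrt G.cliqueNum + 1 + 1) +
        G.cliqueNum * (Nat.sqrt G.cliqueNum + 1) =
        G.cliqueNum * (2 * Nat.sqrt G.cliqueNum + 3) := by ring
    have h7 : 4 * G.cliqueNum * (Nat.sqrt G.cliqueNum + 2) =
        2 * (G.cliqueNum * (2 * Nat.sqrt G.cliqueNum + 3)) + 2 * G.cliqueNum := by ring
    omega

/-- Hadwiger's conjecture for graphs in which every vertex has at most `d` non-neighbours and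
whose clique number `ω` satisfies `2 ω < n` and `144 d^3 ≤ (n - 2 ω)^2`. -/
theorem hadwiger_pairs_of_dense (G : SimpleGraph V) [DecidableRel G.Adj] (d : ℕ)
    (hdeg : ∀ v, Gᶜ.degree v ≤ d) (hω : 2 * G.cliqueNum < Fintype.card V)
    (hn : 144 * d ^ 3 ≤ (Fintype.card V - 2 * G.cliqueNum) ^ 2) :
    ∃ t : ℕ, Fintype.card V ≤ 2 * t ∧ G.Colorable t ∧ HasPairMinor G t := by
  classical
  have hr1 : Nat.sqrt d * Nat.sqrt d ≤ d := Nat.sqrt_le _
  have hr2 : d < (Nat.sqrt d + 1) * (Nat.sqrt d + 1) := Nat.lt_succ_sqrt _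
  apply hadwiger_pairs_aux G d (Nat.sqrt d + 1) (by omega) hdeg
  rcases Nat.eq_zero_or_pos d with hd0 | hdpos
  · subst hd0
    simp only [Nat.zero_mul, Nat.zero_div, Nat.add_zero, Nat.mul_zero, Nat.zero_add]
    exact hω
  · have hrpos : 1 ≤ Nat.sqrt d := by
      by_contra h
      have h0 : Nat.sqrt d = 0 := by omega
      rw [h0] at hr2
      omega
    have h1 : d * d / (Nat.sqrt d + 1) < d * (Nat.sqrt d + 1) := by
      apply Nat.div_lt_of_lt_mul
      nlinarith
    obtain ⟨m, hm⟩ : ∃ m, Fintype.card V = 2 * G.cliqueNum + m := ⟨_, (Nat.add_sub_cancel' hω.le).symm⟩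
    have hm' : Fintype.card V - 2 * G.cliqueNum = m := by omega
    rw [hm'] at hn
    have h2 : 10 * d * Nat.sqrt d < m := by
      by_contra h
      have h := not_lt.mp h
      have h3 : m * m ≤ (10 * d * Nat.sqrt d) * (10 * d * Nat.sqrt d) := Nat.mul_self_le_mul_self h
      have h4 : (10 * d * Nat.sqrt d) * (10 * d * Nat.sqrt d) ≤ 100 * d ^ 3 := by
        have e1 : (10 * d * Nat.sqrt d) * (10 * d * Nat.sqrt d) =
            100 * d * d * (Nat.sqrt d * Nat.sqrt d) := by ring
        have e2 : 100 * d ^ 3 = 100 * d * d * d := by ring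
        rw [e1, e2]
        exact Nat.mul_le_mul_left _ hr1
      have h5 : 0 < d ^ 3 := Nat.pow_pos hdpos
      have h6 : m ^ 2 = m * m := sq _
      omega
    have h7 : d ≤ d * Nat.sqrt d := Nat.le_mul_of_pos_right d hrpos
    have h8 : d * (Nat.sqrt d + 1 + 1) = d * Nat.sqrt d + 2 * d := by ring
    have h9 : d * (Nat.sqrt d + 1) = d * Nat.sqrt d + d := by ring
    have h10 : 10 * d * Nat.sqrt d = 10 * (d * Nat.sqrt d) := by ring
    omega

theorem hadwiger_of_small_clique_aux (G : SimpleGraph V) [DecidableRel G.Adj] (d s : ℕ)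
    (hs : 1 ≤ s) (hdeg : ∀ v, Gᶜ.degree v ≤ d)
    (hsize : 2 * (d * (s + 1) + d * d / s) + 2 * G.cliqueNum < Fintype.card V) :
    ∃ t : ℕ, Fintype.card V ≤ 2 * t ∧ G.Colorable t ∧ HasCompleteMinor G t := by
  obtain ⟨t, h1, h2, h3⟩ := hadwiger_pairs_aux G d s hs hdeg hsize
  exact ⟨t, h1, h2, h3.hasCompleteMinor⟩

/-- Hadwiger's conjecture for graphs with independence number at most two and clique number
`ω` with `144 ω^3 ≤ n^2`. -/
theorem hadwiger_of_small_clique (G : SimpleGraph V) (hα : G.indepNum ≤ 2)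
    (hn : 144 * G.cliqueNum ^ 3 ≤ Fintype.card V ^ 2) :
    ∃ t : ℕ, Fintype.card V ≤ 2 * t ∧ G.Colorable t ∧ HasCompleteMinor G t := by
  obtain ⟨t, h1, h2, h3⟩ := hadwiger_pairs_of_small_clique G hα hn
  exact ⟨t, h1, h2, h3.hasCompleteMinor⟩

/-- Hadwiger's conjecture for graphs in which every vertex has at most `d` non-neighbours and
whose clique number `ω` satisfies `2 ω < n` and `144 d^3 ≤ (n - 2 ω)^2`. -/
theorem hadwiger_of_dense (G : SimpleGraph V) [DecidableRel G.Adj] (d : ℕ)
    (hdeg : ∀ v, Gᶜ.degree v ≤ d) (hω : 2 * G.cliqueNum < Fintype.card V)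
    (hn : 144 * d ^ 3 ≤ (Fintype.card V - 2 * G.cliqueNum) ^ 2) :
    ∃ t : ℕ, Fintype.card V ≤ 2 * t ∧ G.Colorable t ∧ HasCompleteMinor G t := by
  obtain ⟨t, h1, h2, h3⟩ := hadwiger_pairs_of_dense G d hdeg hω hn
  exact ⟨t, h1, h2, h3.hasCompleteMinor⟩

end Vale.Agent.Lib.P060
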