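import Vale.Agent.Lib.P060.Pairs

namespace Vale.Agent.Lib.P060

open Finset

variable {V : Type*} [Fintype V] [DecidableEq V]

/-- The number of common neighbours of `a` and `b` in `H`. -/
def codeg (H : SimpleGraph V) [DecidableRel H.Adj] (a b : V) : ℕ :=
  (H.neighborFinset a ∩ H.neighborFinset b).card

theorem card_high_codeg_le (H : SimpleGraph V) [DecidableRel H.Adj] (d s : ℕ)
    (hdeg : ∀ v, H.degree v ≤ d) (u : V) :
    (univ.filter (fun w => s ≤ codeg H u w)).card * s ≤ d * d := by
  classical
  set B := univ.filter (fun w => s ≤ codeg H u w) with hB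
  calc B.card * s = ∑ _w ∈ B, s := by rw [sum_const, smul_eq_mul]
    _ ≤ ∑ w ∈ B, codeg H u w := sum_le_sum (fun w hw => (mem_filter.mp hw).2)
    _ = ∑ w ∈ B, ∑ z ∈ H.neighborFinset u, (if z ∈ H.neighborFinset w then 1 else 0) := by
        apply sum_congr rfl
        intro w _
        rw [codeg, ← filter_mem_eq_inter, card_filter]
    _ = ∑ z ∈ H.neighborFinset u, ∑ w ∈ B, (if z ∈ H.neighborFinset w then 1 else 0) :=
        sum_comm
    _ ≤ ∑ _z ∈ H.neighborFinset u, d := by
        apply sum_le_sum
        intro z _
        rw [← card_filter]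
        calc (B.filter (fun w => z ∈ H.neighborFinset w)).card
            ≤ (H.neighborFinset z).card := by
              apply card_le_card
              intro w hw
              have := (mem_filter.mp hw).2
              rw [SimpleGraph.mem_neighborFinset] at this ⊢
              exact this.symm
          _ ≤ d := by rw [SimpleGraph.card_neighborFinset_eq_degree]; exact hdeg z
    _ = (H.neighborFinset u).card * d := by rw [sum_const, smul_eq_mul]
    _ ≤ d * d := Nat.mul_le_mul_right _
        (by rw [SimpleGraph.card_neighborFinset_eq_degree]; exact hdeg u)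

/-- Core pairing statement: in a graph whose complement has maximum degree at most `d`, if at
most one vertex lies outside `W` and `W` is large, there is a pairing of `W`, leaving at most
one vertex of `W` unmatched, by pairs of adjacent vertices with fewer than `s` common
non-neighbours, none of them outside `W`, such that no pair lies in the common
non-neighbourhood of another pair. -/
theorem exists_pairing_core (G : SimpleGraph V) [DecidableRel G.Adj] (d s : ℕ) (hs : 1 ≤ s)
    (hdeg : ∀ v, Gᶜ.degree v ≤ d) (W : Finset V)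
    (hWc : ∀ a b, a ∉ W → b ∉ W → a = b)
    (hN : 2 ≤ W.card → 2 * (d * (s + 1) + d * d / s) < W.card) :
    ∃ f : V → V, ValidPairing W
        (fun a b => a ≠ b ∧ ¬ Gᶜ.Adj a b ∧ codeg Gᶜ a b < s ∧
          ∀ z, z ∉ W → ¬ (Gᶜ.Adj a z ∧ Gᶜ.Adj b z))
        (fun a b c e => ¬ (Gᶜ.Adj a c ∧ Gᶜ.Adj a e ∧ Gᶜ.Adj b c ∧ Gᶜ.Adj b e)) f ∧
      ∀ u ∈ W, ∀ v ∈ W, f u = u → f v = v → u = v := by
  classical
  apply exists_almost_perfect W _ _ (d * (s + 1) + d * d / s)
  · rintro a b ⟨h1, h2, h3, h4⟩
    refine ⟨h1.symm, fun h => h2 h.symm, ?_, fun z hz h => h4 z hz ⟨h.2, h.1⟩⟩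
    rw [codeg, inter_comm]; exact h3
  · intro a b c e h h'
    exact h ⟨h'.2.2.1, h'.2.2.2, h'.1, h'.2.1⟩
  · intro a b c e h h'
    exact h ⟨h'.1.symm, h'.2.2.1.symm, h'.2.1.symm, h'.2.2.2.symm⟩
  · intro a b x y hP h'
    exact hP.2.1 h'.2.2.2
  · intro f hf u hu hfu
    refine ⟨Gᶜ.neighborFinset u ∪ univ.filter (fun w => s ≤ codeg Gᶜ u w) ∪
      (univ \ W).biUnion (fun z => Gᶜ.neighborFinset z) ∪
      (Gᶜ.neighborFinset u).biUnion (fun c =>
        if f c ≠ c then Gᶜ.neighborFinset c ∩ Gᶜ.neighborFinset (f c) else ∅), ?_, ?_⟩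
    · have h1 : (Gᶜ.neighborFinset u).card ≤ d := by
        rw [SimpleGraph.card_neighborFinset_eq_degree]; exact hdeg u
      have h2 : (univ.filter (fun w => s ≤ codeg Gᶜ u w)).card ≤ d * d / s := by
        rw [Nat.le_div_iff_mul_le (by omega)]
        exact card_high_codeg_le Gᶜ d s hdeg u
      have h3 : ((univ \ W).biUnion (fun z => Gᶜ.neighborFinset z)).card ≤ d := by
        calc ((univ \ W).biUnion (fun z => Gᶜ.neighborFinset z)).card
            ≤ ∑ z ∈ univ \ W, (Gᶜ.neighborFinset z).card := card_biUnion_le
          _ ≤ ∑ _z ∈ univ \ W, d := sum_le_sum (fun z _ => by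
              rw [SimpleGraph.card_neighborFinset_eq_degree]; exact hdeg z)
          _ = (univ \ W).card * d := by rw [sum_const, smul_eq_mul]
          _ ≤ 1 * d := Nat.mul_le_mul_right _ (card_le_one.mpr (fun a ha b hb =>
              hWc a b (mem_sdiff.mp ha).2 (mem_sdiff.mp hb).2))
          _ = d := one_mul d
      have h4 : ((Gᶜ.neighborFinset u).biUnion (fun c =>
          if f c ≠ c then Gᶜ.neighborFinset c ∩ Gᶜ.neighborFinset (f c) else ∅)).card
          ≤ d * (s - 1) := by
        calc ((Gᶜ.neighborFinset u).biUnion (fun c =>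
              if f c ≠ c then Gᶜ.neighborFinset c ∩ Gᶜ.neighborFinset (f c) else ∅)).card
            ≤ ∑ c ∈ Gᶜ.neighborFinset u, (if f c ≠ c then
                Gᶜ.neighborFinset c ∩ Gᶜ.neighborFinset (f c) else ∅).card := card_biUnion_le
          _ ≤ ∑ _c ∈ Gᶜ.neighborFinset u, (s - 1) := by
              apply sum_le_sum
              intro c _
              by_cases hc : f c ≠ c
              · rw [if_pos hc]
                have h := (hf.adm c hc).2.2.2.1
                rw [codeg] at h
                omega
              · rw [if_neg hc, card_empty]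
                omega
          _ = (Gᶜ.neighborFinset u).card * (s - 1) := by rw [sum_const, smul_eq_mul]
          _ ≤ d * (s - 1) := Nat.mul_le_mul_right _ h1
      have a1 := card_union_le (Gᶜ.neighborFinset u ∪ univ.filter (fun w => s ≤ codeg Gᶜ u w) ∪
        (univ \ W).biUnion (fun z => Gᶜ.neighborFinset z))
        ((Gᶜ.neighborFinset u).biUnion (fun c =>
          if f c ≠ c then Gᶜ.neighborFinset c ∩ Gᶜ.neighborFinset (f c) else ∅))
      have a2 := card_union_le (Gᶜ.neighborFinset u ∪ univ.filter (fun w => s ≤ codeg Gᶜ u w))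
        ((univ \ W).biUnion (fun z => Gᶜ.neighborFinset z))
      have a3 := card_union_le (Gᶜ.neighborFinset u) (univ.filter (fun w => s ≤ codeg Gᶜ u w))
      have h6 : d + d + d * (s - 1) = d * (s + 1) := by
        obtain ⟨k, rfl⟩ : ∃ k, s = k + 1 := ⟨s - 1, by omega⟩
        rw [Nat.add_sub_cancel]; ring
      omega
    · intro w hw hwu hnot
      by_contra hB
      simp only [mem_union, not_or] at hB
      obtain ⟨⟨⟨hB1, hB2⟩, hB3⟩, hB4⟩ := hB
      apply hnot
      refine ⟨⟨Ne.symm hwu, ?_, ?_, ?_⟩, ?_⟩
      · intro h; exact hB1 ((SimpleGraph.mem_neighborFinset _ _ _).mpr h)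
      · by_contra h
        exact hB2 (mem_filter.mpr ⟨mem_univ _, not_lt.mp h⟩)
      · intro z hz h
        apply hB3
        rw [mem_biUnion]
        exact ⟨z, mem_sdiff.mpr ⟨mem_univ _, hz⟩,
          (SimpleGraph.mem_neighborFinset _ _ _).mpr h.2.symm⟩
      · intro c hc h
        apply hB4
        rw [mem_biUnion]
        refine ⟨c, (SimpleGraph.mem_neighborFinset _ _ _).mpr h.1, ?_⟩
        rw [if_pos hc, mem_inter]
        exact ⟨(SimpleGraph.mem_neighborFinset _ _ _).mpr h.2.2.1.symm,
          (SimpleGraph.mem_neighborFinset _ _ _).mpr h.2.2.2.symm⟩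
  · exact hN

/-- Every graph on `n` vertices in which each vertex has at most `d` non-neighbours, with
`144 d^3 ≤ n^2`, has a complete minor on `⌈n/2⌉` vertices. -/
theorem half_minor_of_dense (G : SimpleGraph V) [DecidableRel G.Adj] (d : ℕ)
    (hdeg : ∀ v, Gᶜ.degree v ≤ d) (hn : 144 * d ^ 3 ≤ Fintype.card V ^ 2) :
    HasCompleteMinor G ((Fintype.card V + 1) / 2) := by
  classical
  let e : V → ℕ := fun v => (Fintype.equivFin V v : ℕ)
  have he : Function.Injective e := fun a b h => (Fintype.equivFin V).injective (Fin.ext h)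
  have hnadj : ∀ x y, x ≠ y → ¬ Gᶜ.Adj x y → G.Adj x y := by
    intro x y hxy h
    by_contra h'
    exact h ((SimpleGraph.compl_adj G x y).mpr ⟨hxy, h'⟩)
  obtain ⟨W, hWc, hWeven, hWle⟩ : ∃ W : Finset V, (∀ a b, a ∉ W → b ∉ W → a = b) ∧
      Even W.card ∧ Fintype.card V ≤ W.card + 1 := by
    rcases Nat.even_or_odd (Fintype.card V) with hev | hodd
    · exact ⟨univ, fun a _ ha _ => absurd (mem_univ a) ha, by rwa [card_univ],
        by rw [card_univ]; omega⟩
    · have hpos : 0 < Fintype.card V := hodd.pos
      obtain ⟨v0⟩ : Nonempty V := Fintype.card_pos_iff.mp hpos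
      refine ⟨univ.erase v0, ?_, ?_, ?_⟩
      · intro a b ha hb
        simp only [mem_erase, mem_univ, and_true, not_not] at ha hb
        rw [ha, hb]
      · rw [card_erase_of_mem (mem_univ _), card_univ]
        obtain ⟨k, hk⟩ := hodd
        exact ⟨k, by omega⟩
      · rw [card_erase_of_mem (mem_univ _), card_univ]; omega
  have hr1 : Nat.sqrt d * Nat.sqrt d ≤ d := Nat.sqrt_le d
  have hr2 : d < (Nat.sqrt d + 1) * (Nat.sqrt d + 1) := Nat.lt_succ_sqrt d
  obtain ⟨f, hf, hfu⟩ := exists_pairing_core G d (Nat.sqrt d + 1) (by omega) hdeg W hWc (by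
    intro _
    rcases Nat.eq_zero_or_pos d with hd | hd
    · rw [hd]
      simp only [zero_mul, Nat.zero_div, add_zero, mul_zero]
      omega
    · have h1 : d * d / (Nat.sqrt d + 1) ≤ d * (Nat.sqrt d + 1) := by
        apply Nat.div_le_of_le_mul
        nlinarith
      have h2 : 4 * d * (Nat.sqrt d + 2) ≤ Fintype.card V := by
        by_contra h
        have h := not_le.mp h
        have h3 : Fintype.card V * Fintype.card V <
            (4 * d * (Nat.sqrt d + 2)) * (4 * d * (Nat.sqrt d + 2)) :=
          Nat.mul_self_lt_mul_self h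
        have h4 : (Nat.sqrt d + 2) * (Nat.sqrt d + 2) ≤ 9 * d := by nlinarith
        have h5 : (4 * d * (Nat.sqrt d + 2)) * (4 * d * (Nat.sqrt d + 2)) ≤ 144 * d ^ 3 := by
          have e1 : (4 * d * (Nat.sqrt d + 2)) * (4 * d * (Nat.sqrt d + 2)) =
              16 * d * d * ((Nat.sqrt d + 2) * (Nat.sqrt d + 2)) := by ring
          have e2 : 144 * d ^ 3 = 16 * d * d * (9 * d) := by ring
          rw [e1, e2]
          exact Nat.mul_le_mul_left _ h4
        have h6 : Fintype.card V ^ 2 = Fintype.card V * Fintype.card V := sq _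
        omega
      have h6 : d * (Nat.sqrt d + 1 + 1) + d * (Nat.sqrt d + 1) = d * (2 * Nat.sqrt d + 3) := by
        ring
      have h7 : 4 * d * (Nat.sqrt d + 2) = 2 * (d * (2 * Nat.sqrt d + 3)) + 2 * d := by ring
      omega)
  have hsub : moved f ⊆ W := fun a ha => (hf.adm a (mem_moved.mp ha)).1
  have hperf : W ⊆ moved f := by
    have h1 := card_moved_eq f hf.invol e he
    have h3 : (W \ moved f).card ≤ 1 := by
      apply card_le_one.mpr
      intro a ha b hb
      simp only [mem_sdiff, mem_moved, not_not] at ha hb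
      exact hfu a ha.1 b hb.1 ha.2 hb.2
    have h4 := card_sdiff_of_subset hsub
    obtain ⟨k, hk⟩ := hWeven
    have h5 : (W \ moved f).card = 0 := by omega
    exact sdiff_eq_empty_iff_subset.mp (card_eq_zero.mp h5)
  have hmeq : moved f = W := Subset.antisymm hsub hperf
  have hcard : (reps f e).card = (Fintype.card V + 1) / 2 := by
    have h1 := card_reps f hf.invol e he
    rw [hmeq] at h1
    obtain ⟨k, hk⟩ := hWeven
    have : W.card ≤ Fintype.card V := by
      rw [← card_univ]; exact card_le_card (subset_univ _)
    omega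
  rw [← hcard]
  apply hasCompleteMinor_of_pairing G f hf.invol e he
  · intro a ha
    have hP := (hf.adm a ha).2
    exact hnadj _ _ hP.1 hP.2.1
  · intro a c hca hcfa
    by_cases ha : f a = a
    · have haW : a ∉ W := fun h => (mem_moved.mp (hperf h)) ha
      by_cases hc : f c = c
      · have hcW : c ∉ W := fun h => (mem_moved.mp (hperf h)) hc
        exact absurd (hWc c a hcW haW) hca
      · have hP := (hf.adm c hc).2
        have hne : f c ≠ a := by
          intro h'
          have := hf.invol c
          rw [h', ha] at this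
          exact hca this.symm
        rcases not_and_or.mp (hP.2.2.2 a haW) with h | h
        · left; exact (hnadj _ _ hca h).symm
        · right; left; exact (hnadj _ _ hne h).symm
    · have hP := (hf.adm a ha).2
      by_cases hc : f c = c
      · have hcW : c ∉ W := fun h => (mem_moved.mp (hperf h)) hc
        rcases not_and_or.mp (hP.2.2.2 c hcW) with h | h
        · left; exact hnadj _ _ (Ne.symm hca) h
        · right; right; left; exact hnadj _ _ (Ne.symm hcfa) h
      · have hC := hf.compat a c ha hc hca hcfa
        have h1 : a ≠ f c := by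
          intro h'
          have := hf.invol c
          rw [← h'] at this
          exact hcfa this.symm
        have h2 : f a ≠ f c := by
          intro h'
          have := congrArg f h'
          rw [hf.invol, hf.invol] at this
          exact hca this.symm
        by_contra hnone
        rw [not_or, not_or, not_or] at hnone
        apply hC
        refine ⟨?_, ?_, ?_, ?_⟩
        · by_contra h; exact hnone.1 (hnadj _ _ (Ne.symm hca) h)
        · by_contra h; exact hnone.2.1 (hnadj _ _ h1 h)
        · by_contra h; exact hnone.2.2.1 (hnadj _ _ (Ne.symm hcfa) h)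
        · by_contra h; exact hnone.2.2.2 (hnadj _ _ h2 h)

/-- In a graph with independence number at most two, the non-neighbours of a vertex form a
clique. -/
theorem compl_degree_le_cliqueNum (G : SimpleGraph V) [DecidableRel G.Adj]
    (hα : G.indepNum ≤ 2) (v : V) : Gᶜ.degree v ≤ G.cliqueNum := by
  classical
  rw [← SimpleGraph.card_neighborFinset_eq_degree]
  have hclique : G.IsClique (Gᶜ.neighborFinset v : Set V) := by
    intro a ha b hb hab
    rw [mem_coe, SimpleGraph.mem_neighborFinset, SimpleGraph.compl_adj] at ha hb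
    by_contra hadj
    have hind : G.IsIndepSet (({v, a, b} : Finset V) : Set V) := by
      intro x hx y hy hxy
      simp only [coe_insert, coe_singleton, Set.mem_insert_iff, Set.mem_singleton_iff] at hx hy
      rcases hx with hx | hx | hx <;> rcases hy with hy | hy | hy
      · exact absurd (hx.trans hy.symm) hxy
      · rw [hx, hy]; exact ha.2
      · rw [hx, hy]; exact hb.2
      · rw [hx, hy]; exact fun h => ha.2 h.symm
      · exact absurd (hx.trans hy.symm) hxy
      · rw [hx, hy]; exact hadj
      · rw [hx, hy]; exact fun h => hb.2 h.symm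
      · rw [hx, hy]; exact fun h => hadj h.symm
      · exact absurd (hx.trans hy.symm) hxy
    have hcard : ({v, a, b} : Finset V).card = 3 := by
      rw [card_insert_of_notMem, card_insert_of_notMem, card_singleton]
      · simpa using hab
      · simp [ha.1, hb.1]
    have := hind.card_le_indepNum
    omega
  exact SimpleGraph.IsClique.card_le_cliqueNum (tc := hclique)

/-- Graphs with independence number at most two and small clique number have a complete minor
on half of the vertices. -/
theorem half_minor_of_small_clique (G : SimpleGraph V) (hα : G.indepNum ≤ 2)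
    (hn : 144 * G.cliqueNum ^ 3 ≤ Fintype.card V ^ 2) :
    HasCompleteMinor G ((Fintype.card V + 1) / 2) := by
  classical
  exact half_minor_of_dense G G.cliqueNum (compl_degree_le_cliqueNum G hα) hn

end Vale.Agent.Lib.P060
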