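import Vale.Agent.Lib.P060.Orbit
import Vale.Agent.Lib.P060.NearPerfect
import Vale.Agent.Lib.P060.PairDefs

namespace Vale.Agent.Lib.P060

open Finset

variable {V : Type*} [Fintype V] [DecidableEq V]

/-- `g` is a maximum pairing of `Q`-related vertices inside `S`. -/
def IsMaxPairing (S : Finset V) (Q : V → V → Prop) (g : V → V) : Prop :=
  ValidPairing S Q (fun _ _ _ _ => True) g ∧
    ∀ f, ValidPairing S Q (fun _ _ _ _ => True) f → (moved f).card ≤ (moved g).card

/-- There is a vertex set `S` with a maximum pairing `g` inside `S` such that the number of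
classes is the same as for a maximum pairing of all vertices, and such that every vertex of `S`
is left unmatched by some maximum pairing inside `S`. -/
theorem exists_critical_core (Q : V → V → Prop) (gV : V → V) (hgV : IsMaxPairing univ Q gV) :
    ∃ (S : Finset V) (g : V → V), IsMaxPairing S Q g ∧
      2 * S.card + (moved gV).card = (moved g).card + 2 * Fintype.card V ∧
      ∀ x ∈ S, ∃ m, IsMaxPairing S Q m ∧ m x = x := by
  classical
  let Adm : Finset V → Prop := fun S => ∃ g, IsMaxPairing S Q g ∧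
      2 * S.card + (moved gV).card = (moved g).card + 2 * Fintype.card V
  have hne : (univ.filter Adm).Nonempty :=
    ⟨univ, mem_filter.mpr ⟨mem_univ _, gV, hgV, by rw [card_univ]; omega⟩⟩
  obtain ⟨S, hS, hmin⟩ := exists_min_image (univ.filter Adm) card hne
  obtain ⟨g, hg, hcard⟩ := (mem_filter.mp hS).2
  refine ⟨S, g, hg, hcard, ?_⟩
  intro x hx
  by_contra hno
  have hgx : g x ≠ x := fun h => hno ⟨g, hg, h⟩
  obtain ⟨g', hg'⟩ := exists_max_valid (S.erase x) Q (fun _ _ _ _ => True)
  have hg'S : ValidPairing S Q (fun _ _ _ _ => True) g' :=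
    hg'.1.mono_of_moved (fun a ha => mem_of_mem_erase (hg'.1.adm a ha).1)
  have hg'x : g' x = x := by
    by_contra h
    exact (mem_erase.mp (hg'.1.adm x h).1).1 rfl
  have hlt : (moved g').card < (moved g).card := by
    by_contra h
    have h := not_lt.mp h
    exact hno ⟨g', ⟨hg'S, fun f hf => le_trans (hg.2 f hf) h⟩, hg'x⟩
  obtain ⟨hr, hrc, hra, hrx, hry, hrf⟩ := valid_removePair hg.1 hgx
  have hr' : ValidPairing (S.erase x) Q (fun _ _ _ _ => True) (removePair g x) :=
    hr.mono_of_moved (fun a ha => by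
      rw [mem_erase]
      refine ⟨?_, (hr.adm a ha).1⟩
      intro h
      subst h
      exact ha hrx)
  have hge := hg'.2 _ hr'
  let e : V → ℕ := fun v => (Fintype.equivFin V v : ℕ)
  have he : Function.Injective e := fun a b h => (Fintype.equivFin V).injective (Fin.ext h)
  have p1 := card_moved_eq g hg.1.invol e he
  have p2 := card_moved_eq g' hg'.1.invol e he
  have hpos : 0 < S.card := card_pos.mpr ⟨x, hx⟩
  have hadm : Adm (S.erase x) := ⟨g', hg', by rw [card_erase_of_mem hx]; omega⟩
  have h1 := hmin (S.erase x) (mem_filter.mpr ⟨mem_univ _, hadm⟩)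
  rw [card_erase_of_mem hx] at h1
  omega

theorem card_reps_on (S : Finset V) (f : V → V) (hf : ∀ a, f (f a) = a)
    (hS : moved f ⊆ S) (e : V → ℕ) (he : Function.Injective e) :
    2 * (S.filter (fun a => e a ≤ e (f a))).card + (moved f).card = 2 * S.card := by
  have h1 : S.filter (fun a => e a ≤ e (f a)) =
      (S \ moved f) ∪ (moved f).filter (fun a => e a < e (f a)) := by
    ext a
    simp only [mem_filter, mem_union, mem_sdiff, mem_moved, not_not]
    constructor
    · rintro ⟨haS, ha⟩
      by_cases h : f a = a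
      · exact Or.inl ⟨haS, h⟩
      · refine Or.inr ⟨h, lt_of_le_of_ne ha ?_⟩
        exact fun h' => h (he h').symm
    · rintro (⟨haS, h⟩ | ⟨h1, h2⟩)
      · exact ⟨haS, by rw [h]⟩
      · exact ⟨hS (mem_moved.mpr h1), h2.le⟩
  have h2 : Disjoint (S \ moved f) ((moved f).filter (fun a => e a < e (f a))) := by
    rw [Finset.disjoint_left]
    intro a ha hb
    exact (mem_sdiff.mp ha).2 (mem_filter.mp hb).1
  have h3 := congrArg Finset.card h1
  rw [card_union_of_disjoint h2, card_sdiff_of_subset hS] at h3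
  have h4 := card_moved_eq f hf e he
  have h5 : (moved f).card ≤ S.card := card_le_card hS
  omega

omit [Fintype V] in
/-- A pairing inside `S` whose pairs are edges and whose classes inside `S` are pairwise joined
by an edge yields a complete minor with one branch set per class inside `S`. -/
theorem hasPairMinor_of_pairing_on (G : SimpleGraph V) (S : Finset V) (f : V → V)
    (hf : ∀ a, f (f a) = a)
    (e : V → ℕ) (he : Function.Injective e)
    (hadj : ∀ a ∈ S, f a ≠ a → G.Adj a (f a))
    (hcross : ∀ a ∈ S, ∀ c ∈ S, c ≠ a → c ≠ f a →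
      G.Adj a c ∨ G.Adj a (f c) ∨ G.Adj (f a) c ∨ G.Adj (f a) (f c)) :
    HasPairMinor G (S.filter (fun a => e a ≤ e (f a))).card := by
  classical
  set R := S.filter (fun a => e a ≤ e (f a)) with hR
  have hRS : ∀ r : {a // a ∈ R}, (r : V) ∈ S := fun r => (mem_filter.mp r.2).1
  have hRe : ∀ r : {a // a ∈ R}, e (r : V) ≤ e (f (r : V)) := fun r => (mem_filter.mp r.2).2
  let φ : Fin R.card ≃ {a // a ∈ R} := R.equivFin.symm
  have hne : ∀ r r' : {a // a ∈ R}, r ≠ r' →
      (r' : V) ≠ (r : V) ∧ (r' : V) ≠ f (r : V) := by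
    intro r r' hrr'
    refine ⟨fun h => hrr' (Subtype.ext h.symm), ?_⟩
    intro h
    have h1 := hRe r
    have h2 := hRe r'
    rw [h, hf] at h2
    exact hrr' (Subtype.ext ((he (le_antisymm h1 h2)).trans h.symm))
  refine ⟨fun i => {((φ i : {a // a ∈ R}) : V), f (φ i : {a // a ∈ R})}, ?_, ?_, ?_, ?_⟩
  · intro i
    apply induce_pair_connected
    by_cases h : f (φ i : {a // a ∈ R}) = (φ i : {a // a ∈ R})
    · exact Or.inl h.symm
    · exact Or.inr (hadj _ (hRS _) h)
  · intro i
    have h1 := Set.ncard_insert_le ((φ i : {a // a ∈ R}) : V)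
      ({f (φ i : {a // a ∈ R})} : Set V)
    rw [Set.ncard_singleton] at h1
    exact h1
  · intro i j hij
    have hr : φ i ≠ φ j := fun h => hij (φ.injective h)
    obtain ⟨h1, h2⟩ := hne _ _ hr
    obtain ⟨h3, h4⟩ := hne _ _ (Ne.symm hr)
    rw [Set.disjoint_left]
    intro x hx hx'
    simp only [Set.mem_insert_iff, Set.mem_singleton_iff] at hx hx'
    rcases hx with hx | hx <;> rcases hx' with hx' | hx'
    · exact h1 (hx'.symm.trans hx)
    · exact h4 (hx.symm.trans hx')
    · exact h2 (hx'.symm.trans hx)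
    · apply h1
      have := congrArg f (hx'.symm.trans hx)
      rwa [hf, hf] at this
  · intro i j hij
    have hr : φ i ≠ φ j := fun h => hij (φ.injective h)
    obtain ⟨h1, h2⟩ := hne _ _ hr
    rcases hcross _ (hRS _) _ (hRS _) h1 h2 with h | h | h | h
    · exact ⟨_, Or.inl rfl, _, Or.inl rfl, h⟩
    · exact ⟨_, Or.inl rfl, _, Or.inr rfl, h⟩
    · exact ⟨_, Or.inr rfl, _, Or.inl rfl, h⟩
    · exact ⟨_, Or.inr rfl, _, Or.inr rfl, h⟩

omit [Fintype V] in
/-- A pairing inside `S` whose pairs are edges and whose classes inside `S` are pairwise joined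
by an edge yields a complete minor with one branch set per class inside `S`. -/
theorem hasCompleteMinor_of_pairing_on (G : SimpleGraph V) (S : Finset V) (f : V → V)
    (hf : ∀ a, f (f a) = a)
    (e : V → ℕ) (he : Function.Injective e)
    (hadj : ∀ a ∈ S, f a ≠ a → G.Adj a (f a))
    (hcross : ∀ a ∈ S, ∀ c ∈ S, c ≠ a → c ≠ f a →
      G.Adj a c ∨ G.Adj a (f c) ∨ G.Adj (f a) c ∨ G.Adj (f a) (f c)) :
    HasCompleteMinor G (S.filter (fun a => e a ≤ e (f a))).card :=
  (hasPairMinor_of_pairing_on G S f hf e he hadj hcross).hasCompleteMinor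

/-- Variant of the core pairing statement relative to a set `U` of singleton classes: every
vertex of `W` has at most one non-neighbour in `U`. -/
theorem exists_pairing_core' (G : SimpleGraph V) [DecidableRel G.Adj] (d s : ℕ) (hs : 1 ≤ s)
    (hdeg : ∀ v, Gᶜ.degree v ≤ d) (W U : Finset V)
    (hU1 : ∀ u ∈ W, ∀ z1 ∈ U, ∀ z2 ∈ U, Gᶜ.Adj u z1 → Gᶜ.Adj u z2 → z1 = z2)
    (hN : 2 ≤ W.card → 2 * (d * (s + 1) + d * d / s) < W.card) :
    ∃ f : V → V, ValidPairing W
        (fun a b => a ≠ b ∧ ¬ Gᶜ.Adj a b ∧ codeg Gᶜ a b < s ∧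
          ∀ z, z ∈ U → ¬ (Gᶜ.Adj a z ∧ Gᶜ.Adj b z))
        (fun a b c e => ¬ (Gᶜ.Adj a c ∧ Gᶜ.Adj a e ∧ Gᶜ.Adj b c ∧ Gᶜ.Adj b e)) f ∧
      ∀ u ∈ W, ∀ v ∈ W, f u = u → f v = v → u = v := by
  classical
  apply exists_almost_perfect W _ _ (d * (s + 1) + d * d / s)
  · rintro a b ⟨h1, h2, h3, h4⟩
    refine ⟨h1.symm, fun h => h2 h.symm, ?_, fun z hz h => h4 z hz ⟨h.2, h.1⟩⟩
    rw [codeg, inter_comm]; exact h3
  · intro a b c e h h'
    exact h ⟨h'.2.2.1, h'.2.2.2, h'.1, h'.2.1⟩
  · intro a b c e h h'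
    exact h ⟨h'.1.symm, h'.2.2.1.symm, h'.2.1.symm, h'.2.2.2.symm⟩
  · intro a b x y hP h'
    exact hP.2.1 h'.2.2.2
  · intro f hf u hu hfu
    refine ⟨Gᶜ.neighborFinset u ∪ univ.filter (fun w => s ≤ codeg Gᶜ u w) ∪
      (U.filter (fun z => Gᶜ.Adj u z)).biUnion (fun z => Gᶜ.neighborFinset z) ∪
      (Gᶜ.neighborFinset u).biUnion (fun c =>
        if f c ≠ c then Gᶜ.neighborFinset c ∩ Gᶜ.neighborFinset (f c) else ∅), ?_, ?_⟩
    · have h1 : (Gᶜ.neighborFinset u).card ≤ d := by
        rw [SimpleGraph.card_neighborFinset_eq_degree]; exact hdeg u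
      have h2 : (univ.filter (fun w => s ≤ codeg Gᶜ u w)).card ≤ d * d / s := by
        rw [Nat.le_div_iff_mul_le (by omega)]
        exact card_high_codeg_le Gᶜ d s hdeg u
      have h3 : ((U.filter (fun z => Gᶜ.Adj u z)).biUnion
          (fun z => Gᶜ.neighborFinset z)).card ≤ d := by
        calc ((U.filter (fun z => Gᶜ.Adj u z)).biUnion (fun z => Gᶜ.neighborFinset z)).card
            ≤ ∑ z ∈ U.filter (fun z => Gᶜ.Adj u z), (Gᶜ.neighborFinset z).card :=
              card_biUnion_le
          _ ≤ ∑ _z ∈ U.filter (fun z => Gᶜ.Adj u z), d := sum_le_sum (fun z _ => by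
              rw [SimpleGraph.card_neighborFinset_eq_degree]; exact hdeg z)
          _ = (U.filter (fun z => Gᶜ.Adj u z)).card * d := by rw [sum_const, smul_eq_mul]
          _ ≤ 1 * d := Nat.mul_le_mul_right _ (card_le_one.mpr (fun a ha b hb =>
              hU1 u hu a (mem_filter.mp ha).1 b (mem_filter.mp hb).1
                (mem_filter.mp ha).2 (mem_filter.mp hb).2))
          _ = d := one_mul d
      have h4 : ((Gᶜ.neighborFinset u).biUnion (fun c =>
          if f c ≠ c then Gᶜ.neighborFinset c ∩ Gᶜ.neighborFinset (f c) else ∅)).card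
          ≤ d * (s - 1) := by
        calc ((Gᶜ.neighborFinset u).biUnion (fun c =>
              if f c ≠ c then Gᶜ.neighborFinset c ∩ Gᶜ.neighborFinset (f c) else ∅)).card
            ≤ ∑ c ∈ Gᶜ.neighborFinset u, (if f c ≠ c then
                Gᶜ.neighborFinset c ∩ Gᶜ.neighborFinset (f c) else ∅).card := card_biUnion_le
          _ ≤ ∑ _c ∈ Gᶜ.neighborFinset u, (s - 1) := by
              apply sum_le_sum
              intro c _
              by_cases hc : f c ≠ c
              · rw [if_pos hc]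
                have h := (hf.adm c hc).2.2.2.1
                rw [codeg] at h
                omega
              · rw [if_neg hc, card_empty]
                omega
          _ = (Gᶜ.neighborFinset u).card * (s - 1) := by rw [sum_const, smul_eq_mul]
          _ ≤ d * (s - 1) := Nat.mul_le_mul_right _ h1
      have a1 := card_union_le (Gᶜ.neighborFinset u ∪ univ.filter (fun w => s ≤ codeg Gᶜ u w) ∪
        (U.filter (fun z => Gᶜ.Adj u z)).biUnion (fun z => Gᶜ.neighborFinset z))
        ((Gᶜ.neighborFinset u).biUnion (fun c =>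
          if f c ≠ c then Gᶜ.neighborFinset c ∩ Gᶜ.neighborFinset (f c) else ∅))
      have a2 := card_union_le (Gᶜ.neighborFinset u ∪ univ.filter (fun w => s ≤ codeg Gᶜ u w))
        ((U.filter (fun z => Gᶜ.Adj u z)).biUnion (fun z => Gᶜ.neighborFinset z))
      have a3 := card_union_le (Gᶜ.neighborFinset u) (univ.filter (fun w => s ≤ codeg Gᶜ u w))
      have h6 : d + d + d * (s - 1) = d * (s + 1) := by
        obtain ⟨k, rfl⟩ : ∃ k, s = k + 1 := ⟨s - 1, by omega⟩
        rw [Nat.add_sub_cancel]; ring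
      omega
    · intro w hw hwu hnot
      by_contra hB
      simp only [mem_union, not_or] at hB
      obtain ⟨⟨⟨hB1, hB2⟩, hB3⟩, hB4⟩ := hB
      apply hnot
      refine ⟨⟨Ne.symm hwu, ?_, ?_, ?_⟩, ?_⟩
      · intro h; exact hB1 ((SimpleGraph.mem_neighborFinset _ _ _).mpr h)
      · by_contra h
        exact hB2 (mem_filter.mpr ⟨mem_univ _, not_lt.mp h⟩)
      · intro z hz h
        apply hB3
        rw [mem_biUnion]
        exact ⟨z, mem_filter.mpr ⟨hz, h.1⟩,
          (SimpleGraph.mem_neighborFinset _ _ _).mpr h.2.symm⟩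
      · intro c hc h
        apply hB4
        rw [mem_biUnion]
        refine ⟨c, (SimpleGraph.mem_neighborFinset _ _ _).mpr h.1, ?_⟩
        rw [if_pos hc, mem_inter]
        exact ⟨(SimpleGraph.mem_neighborFinset _ _ _).mpr h.2.2.1.symm,
          (SimpleGraph.mem_neighborFinset _ _ _).mpr h.2.2.2.symm⟩
  · exact hN

end Vale.Agent.Lib.P060
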