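import Mathlib

namespace Vale.Agent.Lib.P060

/-- `G` has a `K_t` minor: there are `t` pairwise disjoint vertex sets `B 0, ..., B (t-1)`,
each inducing a connected (in particular nonempty) subgraph of `G`, such that for all `i ≠ j`
some vertex of `B i` is adjacent in `G` to some vertex of `B j`. -/
def HasCompleteMinor {V : Type*} (G : SimpleGraph V) (t : ℕ) : Prop :=
  ∃ B : Fin t → Set V,
    (∀ i, (G.induce (B i)).Connected) ∧
    (∀ i j, i ≠ j → Disjoint (B i) (B j)) ∧
    (∀ i j, i ≠ j → ∃ x ∈ B i, ∃ y ∈ B j, G.Adj x y)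

end Vale.Agent.Lib.P060
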