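import Vale.Agent.Lib.P060.Dense
import Vale.Agent.Lib.P060.NearPerfect

namespace Vale.Agent.Lib.P060

open Finset

variable {V : Type*} [Fintype V] [DecidableEq V]

/-- If the complement of `G` has a matching covering all but at most one vertex, then `G` is
`⌈n/2⌉`-colourable. -/
theorem colorable_half_of_matching (G : SimpleGraph V)
    (M : Gᶜ.Subgraph) (hM : M.IsMatching) (hcov : Fintype.card V ≤ M.verts.ncard + 1) :
    G.Colorable ((Fintype.card V + 1) / 2) := by
  classical
  let e : V → ℕ := fun v => (Fintype.equivFin V v : ℕ)
  have he : Function.Injective e := fun a b h => (Fintype.equivFin V).injective (Fin.ext h)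
  obtain ⟨g, hg, hgc⟩ := exists_pairing_of_matching Gᶜ M hM
  have h1 := card_reps g hg.invol e he
  have h2 := card_moved_eq g hg.invol e he
  have h3 : (moved g).card ≤ Fintype.card V := by
    rw [← card_univ]; exact card_le_card (subset_univ _)
  have h4 : (reps g e).card = (Fintype.card V + 1) / 2 := by omega
  rw [← h4]
  exact colorable_of_pairing G g hg.invol e
    (fun a ha => ((SimpleGraph.compl_adj G _ _).mp (hg.adm a ha).2).2)

end Vale.Agent.Lib.P060
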