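import Vale.Agent.Lib.P060.Pairs

namespace Vale.Agent.Lib.P060

open Finset

variable {V : Type*} [Fintype V] [DecidableEq V]

omit [Fintype V] [DecidableEq V] in
theorem ValidPairing.mono_of_moved {W W' : Finset V} {P : V → V → Prop}
    {C : V → V → V → V → Prop} {f : V → V} (hf : ValidPairing W P C f)
    (h : ∀ a, f a ≠ a → a ∈ W') : ValidPairing W' P C f :=
  ⟨hf.invol, fun a ha => ⟨h a ha, (hf.adm a ha).2⟩, hf.compat⟩

/-- Orbit lemma: let `g` and `m` be two maximum matchings (pairings of `Q`-related vertices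
inside `S`). If `m` leaves `u` unmatched, then `u` has at most one `Q`-neighbour in `S` that
`g` leaves unmatched. -/
theorem exposed_nbr_unique (S : Finset V) (Q : V → V → Prop) (hQs : ∀ a b, Q a b → Q b a)
    (g m : V → V)
    (hg : ValidPairing S Q (fun _ _ _ _ => True) g)
    (hm : ValidPairing S Q (fun _ _ _ _ => True) m)
    (hgmax : ∀ f, ValidPairing S Q (fun _ _ _ _ => True) f → (moved f).card ≤ (moved g).card)
    (hmmax : ∀ f, ValidPairing S Q (fun _ _ _ _ => True) f → (moved f).card ≤ (moved m).card)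
    (u : V) (huS : u ∈ S) (hu : m u = u)
    (z1 z2 : V) (hz1 : z1 ∈ S) (hz2 : z2 ∈ S) (hgz1 : g z1 = z1) (hgz2 : g z2 = z2)
    (hQ1 : Q u z1) (hQ2 : Q u z2) : z1 = z2 := by
  classical
  have hginv : Function.Involutive g := hg.invol
  have hminv : Function.Involutive m := hm.invol
  let gP : Equiv.Perm V := hginv.toPerm g
  let mP : Equiv.Perm V := hminv.toPerm m
  let π : Equiv.Perm V := mP * gP
  have hπ : ∀ x, π x = m (g x) := fun x => rfl
  have hgP : ∀ x, gP x = g x := fun x => rfl
  have hgg : gP * gP = 1 := by ext x; exact hg.invol x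
  have hmm : mP * mP = 1 := by ext x; exact hm.invol x
  have hginv' : gP⁻¹ = gP := inv_eq_of_mul_eq_one_left hgg
  have hminv' : mP⁻¹ = mP := inv_eq_of_mul_eq_one_left hmm
  have hconj : gP * π * gP⁻¹ = π⁻¹ := by
    rw [hginv']
    show gP * (mP * gP) * gP = (mP * gP)⁻¹
    rw [mul_inv_rev, hginv', hminv', mul_assoc, mul_assoc, hgg, mul_one]
  have hgpow : ∀ (i : ℤ) (x : V), g ((π ^ i) x) = (π ^ (-i)) (g x) := by
    intro i x
    have h1 : gP * π ^ i * gP⁻¹ = π ^ (-i) := by
      rw [← conj_zpow, hconj, inv_zpow']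
    have h2 : gP * π ^ i = π ^ (-i) * gP := by
      rw [← h1, inv_mul_cancel_right]
    exact congrArg (fun p : Equiv.Perm V => p x) h2
  have hgu : g u = (π ^ (-1 : ℤ)) u := by
    have h1 : π (g u) = u := by rw [hπ, hg.invol, hu]
    rw [zpow_neg_one]
    exact (Equiv.Perm.inv_eq_iff_eq.mpr h1.symm).symm
  -- the orbit of u
  let O : Finset V := univ.filter (fun x => ∃ i : ℤ, (π ^ i) u = x)
  have hOmem : ∀ x, x ∈ O ↔ ∃ i : ℤ, (π ^ i) u = x := by
    intro x; simp [O]
  have hOg : ∀ x, x ∈ O → g x ∈ O := by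
    intro x hx
    obtain ⟨i, rfl⟩ := (hOmem x).mp hx
    rw [hOmem, hgpow, hgu]
    exact ⟨-i + -1, by rw [zpow_add]; rfl⟩
  have hOm : ∀ x, x ∈ O → m x ∈ O := by
    intro x hx
    obtain ⟨i, hi⟩ := (hOmem (g x)).mp (hOg x hx)
    rw [hOmem]
    refine ⟨1 + i, ?_⟩
    rw [zpow_add, zpow_one, Equiv.Perm.mul_apply, hi, hπ, hg.invol]
  have hOg' : ∀ x, x ∉ O → g x ∉ O := fun x hx h =>
    hx (by have := hOg _ h; rwa [hg.invol] at this)
  have hOm' : ∀ x, x ∉ O → m x ∉ O := fun x hx h =>
    hx (by have := hOm _ h; rwa [hm.invol] at this)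
  have huO : u ∈ O := (hOmem u).mpr ⟨0, by simp⟩
  -- the two hybrid pairings
  let h1 : V → V := fun x => if x ∈ O then m x else g x
  let h2 : V → V := fun x => if x ∈ O then g x else m x
  have hh1 : ValidPairing S Q (fun _ _ _ _ => True) h1 := by
    refine ⟨?_, ?_, fun _ _ _ _ _ _ => trivial⟩
    · intro x
      by_cases hx : x ∈ O
      · simp only [h1, if_pos hx, if_pos (hOm x hx)]; exact hm.invol x
      · simp only [h1, if_neg hx, if_neg (hOg' x hx)]; exact hg.invol x
    · intro x hx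
      by_cases hxO : x ∈ O
      · simp only [h1, if_pos hxO] at hx ⊢; exact hm.adm x hx
      · simp only [h1, if_neg hxO] at hx ⊢; exact hg.adm x hx
  have hh2 : ValidPairing S Q (fun _ _ _ _ => True) h2 := by
    refine ⟨?_, ?_, fun _ _ _ _ _ _ => trivial⟩
    · intro x
      by_cases hx : x ∈ O
      · simp only [h2, if_pos hx, if_pos (hOg x hx)]; exact hg.invol x
      · simp only [h2, if_neg hx, if_neg (hOm' x hx)]; exact hm.invol x
    · intro x hx
      by_cases hxO : x ∈ O
      · simp only [h2, if_pos hxO] at hx ⊢; exact hg.adm x hx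
      · simp only [h2, if_neg hxO] at hx ⊢; exact hm.adm x hx
  have hc1 : moved h1 = (moved m).filter (fun x => x ∈ O) ∪
      (moved g).filter (fun x => ¬ x ∈ O) := by
    ext x
    simp only [mem_moved, mem_union, mem_filter]
    by_cases hx : x ∈ O
    · simp [h1, hx]
    · simp [h1, hx]
  have hc2 : moved h2 = (moved g).filter (fun x => x ∈ O) ∪
      (moved m).filter (fun x => ¬ x ∈ O) := by
    ext x
    simp only [mem_moved, mem_union, mem_filter]
    by_cases hx : x ∈ O
    · simp [h2, hx]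
    · simp [h2, hx]
  have hd1 : Disjoint ((moved m).filter (fun x => x ∈ O))
      ((moved g).filter (fun x => ¬ x ∈ O)) := by
    rw [disjoint_left]
    intro x hx hx'
    exact (mem_filter.mp hx').2 (mem_filter.mp hx).2
  have hd2 : Disjoint ((moved g).filter (fun x => x ∈ O))
      ((moved m).filter (fun x => ¬ x ∈ O)) := by
    rw [disjoint_left]
    intro x hx hx'
    exact (mem_filter.mp hx').2 (mem_filter.mp hx).2
  have hsum : (moved h1).card + (moved h2).card = (moved m).card + (moved g).card := by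
    rw [hc1, hc2, card_union_of_disjoint hd1, card_union_of_disjoint hd2]
    have e1 := card_filter_add_card_filter_not (s := moved m) (fun x => x ∈ O)
    have e2 := card_filter_add_card_filter_not (s := moved g) (fun x => x ∈ O)
    omega
  have hh1max : (moved g).card ≤ (moved h1).card := by
    have a1 := hgmax h2 hh2
    have a2 := hmmax g hg
    omega
  -- an unmatched neighbour of u lies in the orbit
  have hO1 : ∀ z, z ∈ S → g z = z → Q u z → z ∈ O := by
    intro z hz hgz hQ
    by_contra hzO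
    have huz : u ≠ z := fun h => hzO (h ▸ huO)
    have e1 : h1 u = u := by simp only [h1, if_pos huO]; exact hu
    have e2 : h1 z = z := by simp only [h1, if_neg hzO]; exact hgz
    obtain ⟨hval, hcard⟩ := valid_addPair hh1 hQs (fun _ _ _ _ _ => trivial)
      (fun _ _ _ _ _ => trivial) huz e1 e2 huS hz hQ (fun _ _ => trivial)
    have := hgmax _ hval
    omega
  -- the orbit contains at most one vertex unmatched by g
  have hfix : ∀ i : ℤ, g ((π ^ i) u) = (π ^ i) u → (π ^ (2 * i + 1)) u = u := by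
    intro i hi
    rw [hgpow, hgu] at hi
    have h3 : (π ^ (i + 1)) ((π ^ (-i)) ((π ^ (-1 : ℤ)) u)) = (π ^ (i + 1)) ((π ^ i) u) :=
      congrArg (fun x => (π ^ (i + 1)) x) hi
    rw [← Equiv.Perm.mul_apply, ← Equiv.Perm.mul_apply, ← zpow_add, ← zpow_add,
      ← Equiv.Perm.mul_apply, ← zpow_add] at h3
    have e1 : i + 1 + -i + -1 = 0 := by ring
    have e2 : i + 1 + i = 2 * i + 1 := by ring
    rw [e1, e2, zpow_zero] at h3
    exact h3.symm
  have hsub : ∀ a b : ℤ, (π ^ a) u = u → (π ^ b) u = u → (π ^ (a - b)) u = u := by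
    intro a b ha hb
    rw [zpow_sub, Equiv.Perm.mul_apply]
    have h3 : (π ^ b)⁻¹ u = u := Equiv.Perm.inv_eq_iff_eq.mpr hb.symm
    rw [h3, ha]
  have hmul : ∀ a c : ℤ, (π ^ a) u = u → (π ^ (a * c)) u = u := by
    intro a c ha
    rw [zpow_mul]
    exact Equiv.Perm.zpow_apply_eq_self_of_apply_eq_self ha c
  have hO2 : ∀ a b, a ∈ O → b ∈ O → g a = a → g b = b → a = b := by
    intro a b ha hb hga hgb
    obtain ⟨i, rfl⟩ := (hOmem a).mp ha
    obtain ⟨j, rfl⟩ := (hOmem b).mp hb
    have hi := hfix i hga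
    have hj := hfix j hgb
    have h2q : (π ^ (2 * (i - j))) u = u := by
      have h3 := hsub _ _ hi hj
      have e : (2 * i + 1) - (2 * j + 1) = 2 * (i - j) := by ring
      rwa [e] at h3
    have hq : (π ^ (i - j)) u = u := by
      have a1 := hmul (2 * i + 1) (i - j) hi
      have a2 := hmul (2 * (i - j)) i h2q
      have h3 := hsub _ _ a1 a2
      have e : (2 * i + 1) * (i - j) - 2 * (i - j) * i = i - j := by ring
      rwa [e] at h3
    have e : i = j + (i - j) := by ring
    calc (π ^ i) u = (π ^ (j + (i - j))) u := by rw [← e]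
      _ = (π ^ j) ((π ^ (i - j)) u) := by rw [zpow_add, Equiv.Perm.mul_apply]
      _ = (π ^ j) u := by rw [hq]
  exact hO2 z1 z2 (hO1 z1 hz1 hgz1 hQ1) (hO1 z2 hz2 hgz2 hQ2) hgz1 hgz2

end Vale.Agent.Lib.P060
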