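import Mathlib

namespace Vale.Agent.Lib.P060

open Finset

variable {V : Type*} [Fintype V] [DecidableEq V]

/-- A pairing is an involution `f`; `a` is matched iff `f a ≠ a`. It is valid with respect to
a finset `W`, an admissibility relation `P` and a compatibility relation `C` on pairs. -/
structure ValidPairing (W : Finset V) (P : V → V → Prop) (C : V → V → V → V → Prop)
    (f : V → V) : Prop where
  invol : ∀ a, f (f a) = a
  adm : ∀ a, f a ≠ a → a ∈ W ∧ P a (f a)
  compat : ∀ a c, f a ≠ a → f c ≠ c → c ≠ a → c ≠ f a → C a (f a) c (f c)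

/-- The set of matched vertices of a pairing. -/
def moved (f : V → V) : Finset V := univ.filter (fun a => f a ≠ a)

omit [Fintype V] [DecidableEq V] in
theorem validPairing_id (W : Finset V) (P : V → V → Prop) (C : V → V → V → V → Prop) :
    ValidPairing W P C id :=
  ⟨fun _ => rfl, fun _ h => absurd rfl h, fun _ _ h => absurd rfl h⟩

theorem mem_moved {f : V → V} {a : V} : a ∈ moved f ↔ f a ≠ a := by
  simp [moved]

omit [Fintype V] [DecidableEq V] in
theorem ValidPairing.moved_apply {W : Finset V} {P : V → V → Prop} {C : V → V → V → V → Prop}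
    {f : V → V} (hf : ValidPairing W P C f) {a : V} (h : f a ≠ a) : f (f a) ≠ f a := by
  intro h2
  rw [hf.invol] at h2
  exact h h2.symm

/-- Add the pair `{u, w}` to a pairing. -/
def addPair (f : V → V) (u w : V) : V → V :=
  fun a => if a = u then w else if a = w then u else f a

/-- Remove the pair `{x, f x}` from a pairing. -/
def removePair (f : V → V) (x : V) : V → V :=
  fun a => if a = x then a else if a = f x then a else f a

theorem valid_addPair {W : Finset V} {P : V → V → Prop} {C : V → V → V → V → Prop}
    {f : V → V} (hf : ValidPairing W P C f)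
    (hPs : ∀ a b, P a b → P b a)
    (hC1 : ∀ a b c d, C a b c d → C b a c d)
    (hC2 : ∀ a b c d, C a b c d → C c d a b)
    {u w : V} (huw : u ≠ w) (hu : f u = u) (hw : f w = w) (huW : u ∈ W) (hwW : w ∈ W)
    (hP : P u w) (hCu : ∀ c, f c ≠ c → C u w c (f c)) :
    ValidPairing W P C (addPair f u w) ∧ (moved (addPair f u w)).card = (moved f).card + 2 := by
  have hfu : ∀ a, a ≠ u → f a ≠ u := by
    intro a ha h
    have := hf.invol a
    rw [h, hu] at this
    exact ha this.symm
  have hfw : ∀ a, a ≠ w → f a ≠ w := by
    intro a ha h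
    have := hf.invol a
    rw [h, hw] at this
    exact ha this.symm
  have gu : addPair f u w u = w := by simp [addPair]
  have gw : addPair f u w w = u := by
    simp [addPair, huw.symm]
  have go : ∀ a, a ≠ u → a ≠ w → addPair f u w a = f a := by
    intro a h1 h2
    simp [addPair, h1, h2]
  refine ⟨⟨?_, ?_, ?_⟩, ?_⟩
  · intro a
    by_cases h1 : a = u
    · subst h1; rw [gu, gw]
    · by_cases h2 : a = w
      · subst h2; rw [gw, gu]
      · rw [go a h1 h2, go (f a) (hfu a h1) (hfw a h2), hf.invol]
  · intro a ha
    by_cases h1 : a = u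
    · subst h1; rw [gu]; exact ⟨huW, hP⟩
    · by_cases h2 : a = w
      · subst h2; rw [gw]; exact ⟨hwW, hPs _ _ hP⟩
      · rw [go a h1 h2] at ha ⊢
        exact hf.adm a ha
  · intro a c ha hc hca hcga
    by_cases h1 : a = u
    · subst h1
      rw [gu] at hcga ⊢
      rw [go c hca hcga] at hc ⊢
      exact hCu c hc
    · by_cases h2 : a = w
      · subst h2
        rw [gw] at hcga ⊢
        rw [go c hcga hca] at hc ⊢
        exact hC1 _ _ _ _ (hCu c hc)
      · rw [go a h1 h2] at ha hcga ⊢
        by_cases h3 : c = u
        · subst h3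
          rw [gu]
          exact hC2 _ _ _ _ (hCu a ha)
        · by_cases h4 : c = w
          · subst h4
            rw [gw]
            exact hC2 _ _ _ _ (hC1 _ _ _ _ (hCu a ha))
          · rw [go c h3 h4] at hc ⊢
            exact hf.compat a c ha hc hca hcga
  · have hmv : moved (addPair f u w) = insert u (insert w (moved f)) := by
      ext a
      simp only [mem_moved, mem_insert]
      by_cases h1 : a = u
      · subst h1; rw [gu]; simp [huw.symm]
      · by_cases h2 : a = w
        · subst h2; rw [gw]; simp [huw]
        · rw [go a h1 h2]; simp [h1, h2]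
    rw [hmv, card_insert_of_notMem, card_insert_of_notMem]
    · simp [mem_moved, hw]
    · simp [mem_moved, hu, huw]

theorem valid_removePair {W : Finset V} {P : V → V → Prop} {C : V → V → V → V → Prop}
    {f : V → V} (hf : ValidPairing W P C f) {x : V} (hx : f x ≠ x) :
    ValidPairing W P C (removePair f x) ∧
      (moved (removePair f x)).card + 2 = (moved f).card ∧
      (∀ a, removePair f x a ≠ a → removePair f x a = f a ∧ f a ≠ a) ∧
      removePair f x x = x ∧ removePair f x (f x) = f x ∧
      (∀ a, f a = a → removePair f x a = a) := by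
  have gx : removePair f x x = x := by simp [removePair]
  have gy : removePair f x (f x) = f x := by simp [removePair]
  have go : ∀ a, a ≠ x → a ≠ f x → removePair f x a = f a := by
    intro a h1 h2
    simp [removePair, h1, h2]
  have hfx : ∀ a, a ≠ x → f a ≠ f x := by
    intro a ha h
    have h1 := hf.invol a
    rw [h, hf.invol] at h1
    exact ha h1.symm
  have hfy : ∀ a, a ≠ f x → f a ≠ x := by
    intro a ha h
    have h1 := hf.invol a
    rw [h] at h1
    exact ha h1.symm
  have key : ∀ a, removePair f x a ≠ a → a ≠ x ∧ a ≠ f x := by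
    intro a ha
    refine ⟨?_, ?_⟩
    · rintro rfl; exact ha gx
    · rintro rfl; exact ha gy
  refine ⟨⟨?_, ?_, ?_⟩, ?_, ?_, gx, gy, ?_⟩
  · intro a
    by_cases h1 : a = x
    · subst h1; rw [gx, gx]
    · by_cases h2 : a = f x
      · subst h2; rw [gy, gy]
      · rw [go a h1 h2, go (f a) (hfy a h2) (hfx a h1), hf.invol]
  · intro a ha
    obtain ⟨h1, h2⟩ := key a ha
    rw [go a h1 h2] at ha ⊢
    exact hf.adm a ha
  · intro a c ha hc hca hcga
    obtain ⟨h1, h2⟩ := key a ha
    obtain ⟨h3, h4⟩ := key c hc
    rw [go a h1 h2] at ha hcga ⊢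
    rw [go c h3 h4] at hc ⊢
    exact hf.compat a c ha hc hca hcga
  · have hmv : moved (removePair f x) = ((moved f).erase x).erase (f x) := by
      ext a
      simp only [mem_moved, mem_erase]
      by_cases h1 : a = x
      · subst h1; rw [gx]; simp
      · by_cases h2 : a = f x
        · subst h2; rw [gy]; simp
        · rw [go a h1 h2]; simp [h1, h2]
    rw [hmv, card_erase_of_mem, card_erase_of_mem]
    · have h1 : 1 < (moved f).card := by
        apply Finset.one_lt_card.mpr
        exact ⟨x, mem_moved.mpr hx, f x, mem_moved.mpr (hf.moved_apply hx), fun h => hx h.symm⟩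
      omega
    · exact mem_moved.mpr hx
    · rw [mem_erase]
      exact ⟨hx, mem_moved.mpr (hf.moved_apply hx)⟩
  · intro a ha
    obtain ⟨h1, h2⟩ := key a ha
    rw [go a h1 h2] at ha ⊢
    exact ⟨rfl, ha⟩
  · intro a ha
    by_cases h1 : a = x
    · subst h1; exact gx
    · by_cases h2 : a = f x
      · subst h2; exact gy
      · rw [go a h1 h2, ha]

theorem exists_max_valid (W : Finset V) (P : V → V → Prop) (C : V → V → V → V → Prop) :
    ∃ f, ValidPairing W P C f ∧ ∀ g, ValidPairing W P C g → (moved g).card ≤ (moved f).card := by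
  classical
  have hne : (univ.filter (fun f : V → V => ValidPairing W P C f)).Nonempty :=
    ⟨id, mem_filter.mpr ⟨mem_univ _, validPairing_id W P C⟩⟩
  obtain ⟨f, hf, hmax⟩ := Finset.exists_max_image _ (fun f : V → V => (moved f).card) hne
  exact ⟨f, (mem_filter.mp hf).2, fun g hg => hmax g (mem_filter.mpr ⟨mem_univ _, hg⟩)⟩

/-- Switching lemma: if every unmatched vertex of `W` has at most `β` forbidden partners in `W`
and `2 β < |W|`, then a maximum valid pairing leaves at most one vertex of `W` unmatched. -/
theorem exists_almost_perfect (W : Finset V) (P : V → V → Prop) (C : V → V → V → V → Prop)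
    (β : ℕ)
    (hPs : ∀ a b, P a b → P b a)
    (hC1 : ∀ a b c d, C a b c d → C b a c d)
    (hC2 : ∀ a b c d, C a b c d → C c d a b)
    (hsw : ∀ a b x y, P x y → C a x b y)
    (hcount : ∀ f, ValidPairing W P C f → ∀ u ∈ W, f u = u →
      ∃ B : Finset V, B.card ≤ β ∧
        ∀ w ∈ W, w ≠ u → ¬ (P u w ∧ ∀ c, f c ≠ c → C u w c (f c)) → w ∈ B)
    (hN : 2 ≤ W.card → 2 * β < W.card) :
    ∃ f, ValidPairing W P C f ∧ ∀ u ∈ W, ∀ v ∈ W, f u = u → f v = v → u = v := by
  classical
  obtain ⟨f, hf, hmax⟩ := exists_max_valid W P C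
  refine ⟨f, hf, ?_⟩
  intro u hu v hv hfu hfv
  by_contra huv
  have hC3 : ∀ a b c d, C a b c d → C a b d c := fun a b c d h =>
    hC2 _ _ _ _ (hC1 _ _ _ _ (hC2 _ _ _ _ h))
  -- the allowed partners
  let A : V → Finset V := fun z =>
    W.filter (fun w => w ≠ z ∧ (P z w ∧ ∀ c, f c ≠ c → C z w c (f c)))
  have hA : ∀ z ∈ W, f z = z → W.card ≤ (A z).card + β + 1 := by
    intro z hz hfz
    obtain ⟨B, hB, hBmem⟩ := hcount f hf z hz hfz
    have hsub : W ⊆ insert z (A z ∪ B) := by
      intro w hw
      by_cases h1 : w = z
      · subst h1; exact mem_insert_self _ _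
      · by_cases h2 : P z w ∧ ∀ c, f c ≠ c → C z w c (f c)
        · exact mem_insert_of_mem (mem_union_left _ (mem_filter.mpr ⟨hw, h1, h2⟩))
        · exact mem_insert_of_mem (mem_union_right _ (hBmem w hw h1 h2))
    calc W.card ≤ (insert z (A z ∪ B)).card := card_le_card hsub
      _ ≤ (A z ∪ B).card + 1 := card_insert_le _ _
      _ ≤ (A z).card + B.card + 1 := by
          have := card_union_le (A z) B
          omega
      _ ≤ (A z).card + β + 1 := by omega
  -- allowed partners of an unmatched vertex are matched
  have hAm : ∀ z ∈ W, f z = z → A z ⊆ moved f := by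
    intro z hz hfz w hw
    obtain ⟨hwW, hwz, hP, hCz⟩ := mem_filter.mp hw
    rw [mem_moved]
    intro hfw
    obtain ⟨hval, hcard⟩ := valid_addPair hf hPs hC1 hC2 (Ne.symm hwz) hfz hfw hz hwW hP hCz
    have := hmax _ hval
    omega
  -- no switching is possible
  have hdisj : Disjoint (A u) ((A v).image f) := by
    rw [Finset.disjoint_left]
    intro x hxu hxv
    obtain ⟨y, hyv, hyx⟩ := mem_image.mp hxv
    obtain ⟨hxW, hxu', hPux, hCux⟩ := mem_filter.mp hxu
    obtain ⟨hyW, hyv', hPvy, hCvy⟩ := mem_filter.mp hyv
    have hxm : f x ≠ x := mem_moved.mp (hAm u hu hfu hxu)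
    have hfx : f x = y := by rw [← hyx, hf.invol]
    have hxy : x ≠ y := fun h => hxm (hfx.trans h.symm)
    have hPxy : P x y := hfx ▸ (hf.adm x hxm).2
    have hyu : y ≠ u := by
      rintro rfl
      rw [hfu] at hyx
      exact hxm (by rw [← hyx, hfu])
    have hxv' : x ≠ v := by
      rintro rfl
      exact hxm hfv
    obtain ⟨h1, h1c, h1a, h1x, h1y, h1f⟩ := valid_removePair hf hxm
    rw [hfx] at h1y
    -- add the pair u, x
    have hux : u ≠ x := Ne.symm hxu'
    obtain ⟨h2, h2c⟩ := valid_addPair h1 hPs hC1 hC2 hux (h1f u hfu) h1x hu hxW hPux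
      (fun c hc => by
        obtain ⟨e1, e2⟩ := h1a c hc
        rw [e1]
        exact hCux c e2)
    -- add the pair v, y
    have g2v : addPair (removePair f x) u x v = v := by
      simp only [addPair]
      rw [if_neg (Ne.symm huv), if_neg (Ne.symm hxv')]
      exact h1f v hfv
    have g2y : addPair (removePair f x) u x y = y := by
      simp only [addPair]
      rw [if_neg hyu, if_neg (Ne.symm hxy)]
      exact h1y
    have hCuxvy : C u x v y := hsw u v x y hPxy
    obtain ⟨h3, h3c⟩ := valid_addPair h2 hPs hC1 hC2 (Ne.symm hyv') g2v g2y hv hyW hPvy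
      (fun c hc => by
        by_cases e1 : c = u
        · subst e1
          have : addPair (removePair f x) c x c = x := by simp [addPair]
          rw [this]
          exact hC2 _ _ _ _ hCuxvy
        · by_cases e2 : c = x
          · subst e2
            have : addPair (removePair f c) u c c = u := by
              simp [addPair, e1]
            rw [this]
            exact hC3 _ _ _ _ (hC2 _ _ _ _ hCuxvy)
          · have e3 : addPair (removePair f x) u x c = removePair f x c := by
              simp only [addPair]
              rw [if_neg e1, if_neg e2]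
            rw [e3] at hc ⊢
            obtain ⟨e4, e5⟩ := h1a c hc
            rw [e4]
            exact hCvy c e5)
    have := hmax _ h3
    omega
  have hsub : A u ∪ (A v).image f ⊆ (W.erase u).erase v := by
    intro x hx
    have hxm : x ∈ moved f := by
      rcases mem_union.mp hx with h | h
      · exact hAm u hu hfu h
      · obtain ⟨y, hy, rfl⟩ := mem_image.mp h
        exact mem_moved.mpr (hf.moved_apply (mem_moved.mp (hAm v hv hfv hy)))
    have hxm' := mem_moved.mp hxm
    rw [mem_erase, mem_erase]
    refine ⟨?_, ?_, (hf.adm x hxm').1⟩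
    · rintro rfl; exact hxm' hfv
    · rintro rfl; exact hxm' hfu
  have hinj : ((A v).image f).card = (A v).card := by
    apply card_image_of_injective
    intro a b hab
    have := congrArg f hab
    rwa [hf.invol, hf.invol] at this
  have h1 := card_le_card hsub
  rw [card_union_of_disjoint hdisj, hinj, card_erase_of_mem, card_erase_of_mem hu] at h1
  · have h2 := hA u hu hfu
    have h3 := hA v hv hfv
    have h4 : 2 ≤ W.card := by
      have : 1 < W.card := Finset.one_lt_card.mpr ⟨u, hu, v, hv, huv⟩
      omega
    have h5 := hN h4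
    omega
  · rw [mem_erase]; exact ⟨Ne.symm huv, hv⟩

end Vale.Agent.Lib.P060
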