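import Vale.Agent.Lib.P060.Defs
import Vale.Agent.Lib.P060.Switch

namespace Vale.Agent.Lib.P060

open Finset

variable {V : Type*} [Fintype V] [DecidableEq V]

/-- Representatives of the classes `{a, f a}` of an involution, chosen by an injective
numbering `e`. -/
def reps (f : V → V) (e : V → ℕ) : Finset V := univ.filter (fun a => e a ≤ e (f a))

omit [DecidableEq V] in
theorem mem_reps {f : V → V} {e : V → ℕ} {a : V} : a ∈ reps f e ↔ e a ≤ e (f a) := by
  simp [reps]

theorem card_moved_eq (f : V → V) (hf : ∀ a, f (f a) = a) (e : V → ℕ)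
    (he : Function.Injective e) :
    (moved f).card = 2 * ((moved f).filter (fun a => e a < e (f a))).card := by
  have hfinj : Function.Injective f := by
    intro a b hab
    have := congrArg f hab
    rwa [hf, hf] at this
  have h1 : moved f = (moved f).filter (fun a => e a < e (f a)) ∪
      ((moved f).filter (fun a => e a < e (f a))).image f := by
    ext a
    simp only [mem_union, mem_filter, mem_image, mem_moved]
    constructor
    · intro ha
      rcases lt_trichotomy (e a) (e (f a)) with h | h | h
      · exact Or.inl ⟨ha, h⟩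
      · exact absurd (he h).symm ha
      · refine Or.inr ⟨f a, ⟨?_, ?_⟩, hf a⟩
        · rw [hf]; exact fun h' => ha h'.symm
        · rw [hf]; exact h
    · rintro (⟨ha, -⟩ | ⟨b, ⟨hb, -⟩, rfl⟩)
      · exact ha
      · rw [hf]; exact fun h' => hb h'.symm
  have h2 : Disjoint ((moved f).filter (fun a => e a < e (f a)))
      (((moved f).filter (fun a => e a < e (f a))).image f) := by
    rw [Finset.disjoint_left]
    intro a ha hb
    obtain ⟨b, hb1, rfl⟩ := mem_image.mp hb
    have h3 := (mem_filter.mp ha).2
    have h4 := (mem_filter.mp hb1).2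
    rw [hf] at h3
    omega
  have h3 := congrArg Finset.card h1
  rw [card_union_of_disjoint h2, card_image_of_injective _ hfinj] at h3
  omega

theorem card_reps (f : V → V) (hf : ∀ a, f (f a) = a) (e : V → ℕ)
    (he : Function.Injective e) :
    2 * (reps f e).card + (moved f).card = 2 * Fintype.card V := by
  have h1 : reps f e = (univ \ moved f) ∪ (moved f).filter (fun a => e a < e (f a)) := by
    ext a
    simp only [mem_reps, mem_union, mem_sdiff, mem_univ, true_and, mem_filter, mem_moved,
      not_not]
    constructor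
    · intro ha
      by_cases h : f a = a
      · exact Or.inl h
      · refine Or.inr ⟨h, lt_of_le_of_ne ha ?_⟩
        exact fun h' => h (he h').symm
    · rintro (h | ⟨-, h⟩)
      · rw [h]
      · exact h.le
  have h2 : Disjoint (univ \ moved f) ((moved f).filter (fun a => e a < e (f a))) := by
    rw [Finset.disjoint_left]
    intro a ha hb
    exact (mem_sdiff.mp ha).2 (mem_filter.mp hb).1
  have h3 := congrArg Finset.card h1
  rw [card_union_of_disjoint h2, card_sdiff_of_subset (subset_univ _), card_univ] at h3
  have h4 := card_moved_eq f hf e he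
  have h5 : (moved f).card ≤ Fintype.card V := by
    rw [← card_univ]; exact card_le_card (subset_univ _)
  omega

omit [Fintype V] [DecidableEq V] in
theorem induce_pair_connected (G : SimpleGraph V) (a b : V) (h : a = b ∨ G.Adj a b) :
    (G.induce ({a, b} : Set V)).Connected := by
  have : Nonempty ({a, b} : Set V) := ⟨⟨a, by simp⟩⟩
  refine ⟨?_⟩
  intro x y
  by_cases hxy : x = y
  · subst hxy; exact SimpleGraph.Reachable.refl _
  · apply SimpleGraph.Adj.reachable
    have hx : (x : V) = a ∨ (x : V) = b := x.2
    have hy : (y : V) = a ∨ (y : V) = b := y.2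
    have hne : (x : V) ≠ (y : V) := fun h' => hxy (Subtype.ext h')
    rw [SimpleGraph.induce_adj]
    rcases h with h | h
    · subst h
      simp only [or_self] at hx hy
      exact absurd (hx.trans hy.symm) hne
    · rcases hx with hx | hx <;> rcases hy with hy | hy
      · exact absurd (hx.trans hy.symm) hne
      · rw [hx, hy]; exact h
      · rw [hx, hy]; exact h.symm
      · exact absurd (hx.trans hy.symm) hne

/-- A pairing whose pairs are edges and whose classes are pairwise joined by an edge yields a
complete minor with one branch set per class. -/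
theorem hasCompleteMinor_of_pairing (G : SimpleGraph V) (f : V → V) (hf : ∀ a, f (f a) = a)
    (e : V → ℕ) (he : Function.Injective e)
    (hadj : ∀ a, f a ≠ a → G.Adj a (f a))
    (hcross : ∀ a c, c ≠ a → c ≠ f a →
      G.Adj a c ∨ G.Adj a (f c) ∨ G.Adj (f a) c ∨ G.Adj (f a) (f c)) :
    HasCompleteMinor G (reps f e).card := by
  classical
  let φ : Fin (reps f e).card ≃ {a // a ∈ reps f e} := (reps f e).equivFin.symm
  have hne : ∀ r r' : {a // a ∈ reps f e}, r ≠ r' →
      (r' : V) ≠ (r : V) ∧ (r' : V) ≠ f (r : V) := by
    intro r r' hrr'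
    refine ⟨fun h => hrr' (Subtype.ext h.symm), ?_⟩
    intro h
    have h1 := mem_reps.mp r.2
    have h2 := mem_reps.mp r'.2
    rw [h, hf] at h2
    exact hrr' (Subtype.ext ((he (le_antisymm h1 h2)).trans h.symm))
  refine ⟨fun i => {((φ i : {a // a ∈ reps f e}) : V), f (φ i : {a // a ∈ reps f e})}, ?_, ?_, ?_⟩
  · intro i
    apply induce_pair_connected
    by_cases h : f (φ i : {a // a ∈ reps f e}) = (φ i : {a // a ∈ reps f e})
    · exact Or.inl h.symm
    · exact Or.inr (hadj _ h)
  · intro i j hij
    have hr : φ i ≠ φ j := fun h => hij (φ.injective h)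
    obtain ⟨h1, h2⟩ := hne _ _ hr
    obtain ⟨h3, h4⟩ := hne _ _ (Ne.symm hr)
    rw [Set.disjoint_left]
    intro x hx hx'
    simp only [Set.mem_insert_iff, Set.mem_singleton_iff] at hx hx'
    rcases hx with hx | hx <;> rcases hx' with hx' | hx'
    · exact h1 (hx'.symm.trans hx)
    · exact h4 (hx.symm.trans hx')
    · exact h2 (hx'.symm.trans hx)
    · apply h1
      have := congrArg f (hx'.symm.trans hx)
      rwa [hf, hf] at this
  · intro i j hij
    have hr : φ i ≠ φ j := fun h => hij (φ.injective h)
    obtain ⟨h1, h2⟩ := hne _ _ hr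
    rcases hcross _ _ h1 h2 with h | h | h | h
    · exact ⟨_, Or.inl rfl, _, Or.inl rfl, h⟩
    · exact ⟨_, Or.inl rfl, _, Or.inr rfl, h⟩
    · exact ⟨_, Or.inr rfl, _, Or.inl rfl, h⟩
    · exact ⟨_, Or.inr rfl, _, Or.inr rfl, h⟩

/-- A pairing of non-adjacent vertices yields a proper colouring with one colour per class. -/
theorem colorable_of_pairing (G : SimpleGraph V) (g : V → V) (hg : ∀ a, g (g a) = a)
    (e : V → ℕ)
    (hnadj : ∀ a, g a ≠ a → ¬ G.Adj a (g a)) :
    G.Colorable (reps g e).card := by
  classical
  have hmem : ∀ v, ¬ e v ≤ e (g v) → g v ∈ reps g e := by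
    intro v hv
    rw [mem_reps, hg]
    omega
  let c : V → {a // a ∈ reps g e} := fun v =>
    if h : e v ≤ e (g v) then ⟨v, mem_reps.mpr h⟩ else ⟨g v, hmem v h⟩
  have hc : ∀ v, ((c v : {a // a ∈ reps g e}) : V) = v ∨
      (((c v : {a // a ∈ reps g e}) : V) = g v ∧ g v ≠ v) := by
    intro v
    by_cases h : e v ≤ e (g v)
    · left; simp [c, h]
    · right
      refine ⟨by simp [c, h], ?_⟩
      intro h'
      rw [h'] at h
      exact h le_rfl
  have hcol : ∀ a b, G.Adj a b → c a ≠ c b := by
    intro a b hab hcab
    have h0 : ((c a : {a // a ∈ reps g e}) : V) = ((c b : {a // a ∈ reps g e}) : V) :=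
      congrArg Subtype.val hcab
    rcases hc a with ha | ⟨ha, ha'⟩ <;> rcases hc b with hb | ⟨hb, hb'⟩
    · rw [ha, hb] at h0
      exact hab.ne h0
    · rw [ha, hb] at h0
      rw [h0] at hab
      exact hnadj b hb' hab.symm
    · rw [ha, hb] at h0
      rw [← h0] at hab
      exact hnadj a ha' hab
    · rw [ha, hb] at h0
      have := congrArg g h0
      rw [hg, hg] at this
      exact hab.ne this
  have := (SimpleGraph.Coloring.mk c (fun {a b} hab => hcol a b hab)).colorable
  rwa [Fintype.card_coe] at this

end Vale.Agent.Lib.P060
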